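import Vale.Agent.P076T.KerA
import Vale.Agent.P076.H780.Triv

/-! # P076T : kernel bounds for `evo`, Plancherel, any dimension -/

set_option linter.all false

open MeasureTheory Complex Set
open scoped FourierTransform ENNReal

namespace Vale.Agent.P076T

open Vale.Agent.P076
open Vale.Agent.P076.H819 (Lam Lam_pos)

variable {n : ℕ}

/-- the same data in the other normalisation -/
noncomputable def cvt (G : E n → ℂ) (ξ : FF n) : ℂ :=
  (((2 * Real.pi) ^ n)⁻¹ : ℝ) * G (WithLp.toLp 2 ((2 * Real.pi)⁻¹ • ξ))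

theorem evo_coord (G : E n → ℂ) (x : E n) (t : ℝ) : evo G x t 0 = ∫ η : FF n,
    cexp (2 * Real.pi * I * (((∑ i, x i * η i) - t * (∑ i, η i ^ 2) : ℝ) : ℂ)) * G (WithLp.toLp 2 η) := by
  have h := (PiLp.volume_preserving_toLp (Fin n)).integral_comp
    (MeasurableEquiv.toLp 2 (Fin n → ℝ)).measurableEmbedding
    (fun η : E n => cexp (2 * Real.pi * I * ((inner ℝ x η - t * ‖η‖ ^ 2 : ℝ) : ℂ) - ((0 : ℝ) * ‖η‖ ^ 2 : ℝ)) * G η)
  unfold evo
  rw [← h]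
  congr 1; ext η
  have h1 : inner ℝ x (WithLp.toLp 2 η : E n) = ∑ i, x i * η i := by
    simp [PiLp.inner_apply, mul_comm]
  have h2 : ‖(WithLp.toLp 2 η : E n)‖ ^ 2 = ∑ i, η i ^ 2 := by
    rw [EuclideanSpace.norm_sq_eq]; simp
  rw [h1, h2]
  simp

theorem evo_eq_Evo (G : E n → ℂ) (x : E n) (t : ℝ) :
    evo G x t 0 = Evo (cvt G) (fun i => x i) (t / (2 * Real.pi)) := by
  have hpi : (0 : ℝ) < 2 * Real.pi := by positivity
  set F : FF n → ℂ := fun η => cexp (2 * Real.pi * I * (((∑ i, x i * η i) - t * (∑ i, η i ^ 2) : ℝ) : ℂ)) *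
    G (WithLp.toLp 2 η) with hF
  have e1 : evo G x t 0 = ∫ η : FF n, F η := evo_coord G x t
  rw [e1]
  have e2 := MeasureTheory.Measure.integral_comp_smul (volume : Measure (FF n)) F ((2 * Real.pi)⁻¹)
  have e3 : Evo (cvt G) (fun i => x i) (t / (2 * Real.pi)) =
      ∫ ξ : FF n, ((((2 * Real.pi) ^ n)⁻¹ : ℝ) : ℂ) * F ((2 * Real.pi)⁻¹ • ξ) := by
    unfold Evo cvt
    congr 1; ext ξ
    rw [hF]
    simp only [Pi.smul_apply, smul_eq_mul]
    rw [← mul_assoc, mul_comm (cexp _) ((((2 * Real.pi) ^ n)⁻¹ : ℝ) : ℂ), mul_assoc]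
    congr 3
    have a1 : ∑ i, x i * ((2 * Real.pi)⁻¹ * ξ i) = (2 * Real.pi)⁻¹ * ∑ i, x i * ξ i := by
      rw [Finset.mul_sum]; exact Finset.sum_congr rfl fun i _ => by ring
    have a2 : ∑ i, ((2 * Real.pi)⁻¹ * ξ i) ^ 2 = (2 * Real.pi)⁻¹ ^ 2 * ∑ i, ξ i ^ 2 := by
      rw [Finset.mul_sum]; exact Finset.sum_congr rfl fun i _ => by ring
    rw [a1, a2]
    generalize ∑ i, x i * ξ i = a
    generalize ∑ i, ξ i ^ 2 = b
    push_cast
    have : (Real.pi : ℂ) ≠ 0 := by exact_mod_cast Real.pi_ne_zero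
    field_simp
  rw [e3, integral_const_mul, e2]
  have h3 : Module.finrank ℝ (FF n) = n := by simp
  rw [h3, Complex.real_smul, ← mul_assoc, ← Complex.ofReal_mul]
  have h4 : ((2 * Real.pi) ^ n)⁻¹ * |(((2 * Real.pi)⁻¹) ^ n)⁻¹| = 1 := by
    rw [inv_pow, inv_inv, abs_of_pos (by positivity)]
    field_simp
  rw [h4]; simp

theorem cvt_integrable {G : E n → ℂ} (hG : Integrable G) : Integrable (cvt G) := by
  unfold cvt
  refine Integrable.const_mul ?_ _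
  have h1 : Integrable (fun η : FF n => G (WithLp.toLp 2 η)) :=
    ((PiLp.volume_preserving_toLp (Fin n)).integrable_comp_emb
      (MeasurableEquiv.toLp 2 (Fin n → ℝ)).measurableEmbedding).2 hG
  exact h1.comp_smul (by positivity)

/-- **kernel bound for a frequency box** `|η i - η0 i| ≤ A / L i`, any two times -/
theorem kernel_box (n M : ℕ) (A : ℝ) : ∃ C : ℝ, 0 ≤ C ∧ ∀ (L : Fin n → ℝ) (η0 : E n) (G : E n → ℂ),
    (∀ i, 0 < L i) → Integrable G → (∀ η, G η ≠ 0 → ∀ i, |η i - η0 i| ≤ A / L i) → ∀ (x : E n) (t t0 : ℝ),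
      ‖evo G x t 0‖ₑ ^ 2 ≤ ENNReal.ofReal (C * ∏ i, ((1 + |t - t0| / L i ^ 2) / L i)) *
        ∫⁻ y : E n, ‖evo G y t0 0‖ₑ ^ 2 * ENNReal.ofReal
          (wq M (fun i => L i * (1 + |t - t0| / L i ^ 2)) (fun i => x i - y i - 2 * (t - t0) * η0 i)) := by
  have hpi : (0 : ℝ) < 2 * Real.pi := by positivity
  have hpi1 : (1 : ℝ) ≤ 2 * Real.pi := by linarith [Real.pi_gt_three]
  obtain ⟨C, hC, H⟩ := kernel_bound n M (2 * Real.pi * A)
  refine ⟨C, hC, fun L η0 G hL hG hs x t t0 => ?_⟩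
  have h1 := H L (fun i => 2 * Real.pi * η0 i) (cvt G) hL (cvt_integrable hG) ?_ (fun i => x i)
    (t / (2 * Real.pi)) (t0 / (2 * Real.pi))
  · rw [evo_eq_Evo]
    have h5 : |t / (2 * Real.pi) - t0 / (2 * Real.pi)| ≤ |t - t0| := by
      rw [← sub_div, abs_div, abs_of_pos hpi]
      exact div_le_self (abs_nonneg _) hpi1
    refine h1.trans (mul_le_mul' (ENNReal.ofReal_le_ofReal (mul_le_mul_of_nonneg_left ?_ hC)) ?_)
    · refine Finset.prod_le_prod (fun i _ => by have := hL i; positivity) fun i _ => ?_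
      have := hL i
      gcongr
    have h := (PiLp.volume_preserving_toLp (Fin n)).lintegral_comp_emb
      (MeasurableEquiv.toLp 2 (Fin n → ℝ)).measurableEmbedding
      (fun y : E n => ‖evo G y t0 0‖ₑ ^ 2 * ENNReal.ofReal
          (wq M (fun i => L i * (1 + |t - t0| / L i ^ 2)) (fun i => x i - y i - 2 * (t - t0) * η0 i)))
    rw [← h]
    refine lintegral_mono fun y => ?_
    simp only []
    rw [evo_eq_Evo]
    refine mul_le_mul' le_rfl (ENNReal.ofReal_le_ofReal ?_)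
    refine (wq_mono M (fun i => Lam_pos (hL i) _) (L' := fun i => L i * (1 + |t - t0| / L i ^ 2))
      (fun i => ?_) _).trans (le_of_eq ?_)
    · have := hL i
      unfold Lam
      gcongr
    · congr 1; ext i
      field_simp
  · intro ξ hξ i
    have h2 : G (WithLp.toLp 2 ((2 * Real.pi)⁻¹ • ξ)) ≠ 0 := fun h => hξ (by unfold cvt; rw [h, mul_zero])
    have h3 := hs _ h2 i
    simp only [Pi.smul_apply, smul_eq_mul] at h3
    calc |ξ i - 2 * Real.pi * η0 i| = 2 * Real.pi * |(2 * Real.pi)⁻¹ * ξ i - η0 i| := by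
          rw [← abs_of_pos hpi, ← abs_mul, abs_of_pos hpi]; congr 1; field_simp
      _ ≤ 2 * Real.pi * (A / L i) := by gcongr
      _ = _ := by ring

theorem abs_apply_le (v : E n) (i : Fin n) : |v i| ≤ ‖v‖ := by
  have := PiLp.norm_apply_le v i; rwa [Real.norm_eq_abs] at this

theorem norm_le_sum (v : E n) : ‖v‖ ≤ ∑ i, |v i| := by
  rw [EuclideanSpace.norm_eq]
  refine Real.sqrt_le_iff.2 ⟨Finset.sum_nonneg fun i _ => abs_nonneg _, ?_⟩
  simp only [Real.norm_eq_abs]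
  rw [sq, Finset.sum_mul]
  refine Finset.sum_le_sum fun i _ => ?_
  rw [sq]
  exact mul_le_mul_of_nonneg_left
    (Finset.single_le_sum (f := fun j => |v j|) (fun j _ => abs_nonneg _) (Finset.mem_univ i)) (abs_nonneg _)

theorem norm_le_mul {v : E n} {r : ℝ} (h : ∀ i, |v i| ≤ r) : ‖v‖ ≤ n * r := by
  refine (norm_le_sum v).trans ?_
  calc ∑ i, |v i| ≤ ∑ _i : Fin n, r := Finset.sum_le_sum fun i _ => h i
    _ = n * r := by simp

/-- the weight, `(1 + |v|/L)^(-M)` -/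
noncomputable def wE (M L : ℝ) (v : E n) : ℝ := (1 + ‖v‖ / L) ^ (-M)

theorem wq_le_wE {M : ℝ} {N : ℕ} (hM : M ≤ N) {L : ℝ} (hL : 0 < L) (v : E n) :
    wq N (fun _ => L) (fun i => v i) ≤ wE M L v := by
  unfold wq wE
  have h1 := norm_le_sum v
  have h0 : (1 : ℝ) ≤ 1 + ‖v‖ / L := le_add_of_nonneg_right (by positivity)
  have h2 : 1 + ‖v‖ / L ≤ 1 + ∑ i, |v i| / L := by
    rw [← Finset.sum_div]; gcongr
  rw [← Real.rpow_natCast, ← Real.rpow_neg (by linarith)]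
  calc (1 + ∑ i, |v i| / L) ^ (-(N : ℝ)) ≤ (1 + ‖v‖ / L) ^ (-(N : ℝ)) :=
        Real.rpow_le_rpow_of_nonpos (by linarith) h2 (by simp)
    _ ≤ (1 + ‖v‖ / L) ^ (-M) := Real.rpow_le_rpow_of_exponent_le h0 (by linarith)

/-- kernel bound for a cube of frequencies, `lintegral` form, any two times -/
theorem kernel_evo_all (n : ℕ) (M A : ℝ) : ∃ C : ℝ, 0 ≤ C ∧ ∀ (L : ℝ) (η0 : E n) (G : E n → ℂ), 0 < L →
    Integrable G → (∀ η, G η ≠ 0 → ∀ i, |η i - η0 i| ≤ A / L) → ∀ (x : E n) (t t0 : ℝ),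
      ‖evo G x t 0‖ₑ ^ 2 ≤ ENNReal.ofReal (C * ((1 + |t - t0| / L ^ 2) ^ n / L ^ n)) *
        ∫⁻ y : E n, ‖evo G y t0 0‖ₑ ^ 2 *
          ENNReal.ofReal (wE M (L * (1 + |t - t0| / L ^ 2)) (x - y - (2 * (t - t0)) • η0)) := by
  obtain ⟨N0, hN0⟩ := exists_nat_ge M
  obtain ⟨C, hC, H⟩ := kernel_box n N0 A
  refine ⟨C, hC, fun L η0 G hL hG hs x t t0 => ?_⟩
  refine (H (fun _ => L) η0 G (fun _ => hL) hG hs x t t0).trans (mul_le_mul' (le_of_eq ?_) ?_)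
  · rw [Finset.prod_const, Finset.card_univ, Fintype.card_fin, div_pow]
  · refine lintegral_mono fun y => mul_le_mul' le_rfl (ENNReal.ofReal_le_ofReal ?_)
    refine le_trans (le_of_eq ?_) (wq_le_wE hN0 (by positivity) (x - y - (2 * (t - t0)) • η0))
    congr 1

theorem memLp_of_bdd {G : E n → ℂ} (hm : Measurable G) (hb : ∃ b : ℝ, ∀ η, ‖G η‖ ≤ b) {η0 : E n} {r : ℝ}
    (hs : ∀ η, G η ≠ 0 → ‖η - η0‖ ≤ r) (p : ℝ≥0∞) : MemLp G p := by
  obtain ⟨b, hb⟩ := hb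
  have h2 : G = (Metric.closedBall η0 r).indicator G := by
    ext η
    by_cases h : G η = 0
    · by_cases h' : η ∈ Metric.closedBall η0 r <;> simp [h, indicator]
    · rw [indicator_of_mem (by rw [Metric.mem_closedBall, dist_eq_norm]; exact hs η h)]
  have h3 : MemLp G ⊤ := memLp_top_of_bound hm.aestronglyMeasurable b (by filter_upwards with η; exact hb η)
  rw [h2]
  have : IsFiniteMeasure ((volume : Measure (E n)).restrict (Metric.closedBall η0 r)) :=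
    ⟨by rw [Measure.restrict_apply_univ]; exact measure_closedBall_lt_top⟩
  rw [memLp_indicator_iff_restrict Metric.isClosed_closedBall.measurableSet]
  exact (h3.restrict _).mono_exponent le_top

theorem int_of_bdd {G : E n → ℂ} (hm : Measurable G) (hb : ∃ b : ℝ, ∀ η, ‖G η‖ ≤ b) {η0 : E n} {r : ℝ}
    (hs : ∀ η, G η ≠ 0 → ∀ i, |η i - η0 i| ≤ r) : Integrable G ∧ MemLp G 2 := by
  have h := memLp_of_bdd hm hb (η0 := η0) (r := n * r) fun η hη => norm_le_mul fun i => hs η hη i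
  exact ⟨memLp_one_iff_integrable.1 (h 1), h 2⟩

theorem fourierInv_eq_evo (G : E n → ℂ) (y : E n) : (𝓕⁻ G : E n → ℂ) y = evo G y 0 0 := by
  rw [Real.fourierInv_eq']
  unfold evo
  congr 1; ext η
  rw [smul_eq_mul, real_inner_comm]
  congr 2
  push_cast; ring

theorem lp_norm_sq (f : Lp ℂ 2 (volume : Measure (E n))) : ‖f‖ ^ 2 = ∫ x, ‖f x‖ ^ 2 := by
  have h := L2.inner_def (𝕜 := ℂ) f f
  rw [inner_self_eq_norm_sq_to_K] at h
  have h2 : ∫ x, inner ℂ (f x) (f x) = ((∫ x, ‖f x‖ ^ 2 : ℝ) : ℂ) := by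
    rw [← integral_complex_ofReal]
    congr 1
    ext x
    rw [inner_self_eq_norm_sq_to_K]
    push_cast
    rfl
  rw [h2] at h
  have h3 : (((‖f‖ ^ 2 : ℝ)) : ℂ) = ((∫ x, ‖f x‖ ^ 2 : ℝ) : ℂ) := by
    rw [← h]; push_cast; rfl
  exact_mod_cast h3

/-- Plancherel -/
theorem planch {G : E n → ℂ} (h1 : Integrable G) (h2 : MemLp G 2) :
    Integrable (fun x => ‖(𝓕⁻ G : E n → ℂ) x‖ ^ 2) ∧ ∫ x, ‖(𝓕⁻ G : E n → ℂ) x‖ ^ 2 = ∫ η, ‖G η‖ ^ 2 := by
  have e0 : MemLp (𝓕⁻ G : E n → ℂ) 2 :=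
    (Lp.memLp (𝓕⁻ (h2.toLp G) : Lp ℂ 2 (volume : Measure (E n)))).ae_eq (fourierInv_L2_ae_eq h1 h2)
  refine ⟨e0.integrable_norm_pow (by norm_num), ?_⟩
  have e1 : ∫ x, ‖(𝓕⁻ G : E n → ℂ) x‖ ^ 2 = ‖(𝓕⁻ (h2.toLp G) : Lp ℂ 2 (volume : Measure (E n)))‖ ^ 2 := by
    rw [lp_norm_sq]
    refine integral_congr_ae ?_
    filter_upwards [fourierInv_L2_ae_eq h1 h2] with x hx
    rw [hx]
  have e2 : ‖(𝓕⁻ (h2.toLp G) : Lp ℂ 2 (volume : Measure (E n)))‖ = ‖h2.toLp G‖ := by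
    rw [← Lp.norm_fourier_eq, FourierTransform.fourier_fourierInv_eq]
  have e3 : ‖h2.toLp G‖ ^ 2 = ∫ η, ‖G η‖ ^ 2 := by
    rw [lp_norm_sq]
    refine integral_congr_ae ?_
    filter_upwards [h2.coeFn_toLp] with x hx
    rw [hx]
  rw [e1, e2, e3]

/-- from the `lintegral` form to the Bochner form -/
theorem bochner_of {H : E n → ℂ} (hi : Integrable H) (h2 : MemLp H 2) {w : E n → ℝ} (hw : Measurable w)
    (hw0 : ∀ y, 0 ≤ w y) (hw1 : ∀ y, w y ≤ 1) {z : ℂ} {c : ℝ} (hc : 0 ≤ c)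
    (k : ‖z‖ₑ ^ 2 ≤ ENNReal.ofReal c * ∫⁻ y : E n, ‖evo H y 0 0‖ₑ ^ 2 * ENNReal.ofReal (w y)) :
    ‖z‖ ^ 2 ≤ c * ∫ y : E n, ‖(𝓕⁻ H : E n → ℂ) y‖ ^ 2 * w y := by
  have hsq := (planch hi h2).1
  have hint : Integrable (fun y : E n => ‖(𝓕⁻ H : E n → ℂ) y‖ ^ 2 * w y) := by
    refine hsq.mono' (hsq.aestronglyMeasurable.mul hw.aestronglyMeasurable) ?_
    filter_upwards with y
    rw [Real.norm_eq_abs, abs_of_nonneg (mul_nonneg (by positivity) (hw0 y))]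
    exact mul_le_of_le_one_right (by positivity) (hw1 y)
  have e1 : ∫⁻ y : E n, ‖evo H y 0 0‖ₑ ^ 2 * ENNReal.ofReal (w y)
      = ENNReal.ofReal (∫ y : E n, ‖(𝓕⁻ H : E n → ℂ) y‖ ^ 2 * w y) := by
    rw [ofReal_integral_eq_lintegral_ofReal hint
      (by filter_upwards with y; exact mul_nonneg (by positivity) (hw0 y))]
    refine lintegral_congr fun y => ?_
    rw [ENNReal.ofReal_mul (by positivity), ENNReal.ofReal_pow (norm_nonneg _), ofReal_norm, fourierInv_eq_evo]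
  rw [e1, ← ENNReal.ofReal_mul hc, ← ofReal_norm, ← ENNReal.ofReal_pow (norm_nonneg _)] at k
  exact (ENNReal.ofReal_le_ofReal_iff (mul_nonneg hc (integral_nonneg fun y =>
    mul_nonneg (by positivity) (hw0 y)))).1 k

/-- **kernel bound, Bochner form, all times** -/
theorem kernel_asm_all (n : ℕ) (M c0 : ℝ) (hM : 0 ≤ M) : ∃ C : ℝ, 0 ≤ C ∧ ∀ (L : ℝ) (η0 : E n) (H : E n → ℂ),
    0 < L → Measurable H → (∃ b : ℝ, ∀ η, ‖H η‖ ≤ b) → (∀ η, H η ≠ 0 → ∀ i, |η i - η0 i| ≤ c0 / L) →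
    ∀ (x : E n) (t : ℝ), ‖evo H x t 0‖ ^ 2 ≤ C * ((1 + |t| / L ^ 2) ^ n / L ^ n) *
      ∫ y : E n, ‖(𝓕⁻ H : E n → ℂ) y‖ ^ 2 * (1 + ‖x - y - (2 * t) • η0‖ / (L * (1 + |t| / L ^ 2))) ^ (-M) := by
  obtain ⟨C, hC, K⟩ := kernel_evo_all n M c0
  refine ⟨C, hC, fun L η0 H hL hm hb hs x t => ?_⟩
  obtain ⟨hi, h2⟩ := int_of_bdd hm hb hs
  have k := K L η0 H hL hi hs x t 0
  rw [sub_zero] at k
  refine bochner_of hi h2 (by fun_prop) (fun y => by positivity) (fun y => ?_) (by positivity) k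
  exact Real.rpow_le_one_of_one_le_of_nonpos (le_add_of_nonneg_right (by positivity)) (by linarith)

/-- **kernel bound, Bochner form**, times `|t| ≤ c0 L²` -/
theorem kernel_asm (n : ℕ) (M c0 : ℝ) (hM : 0 ≤ M) (hc : 0 ≤ c0) : ∃ C : ℝ, 0 ≤ C ∧
    ∀ (L : ℝ) (η0 : E n) (H : E n → ℂ), 0 < L →
    Measurable H → (∃ b : ℝ, ∀ η, ‖H η‖ ≤ b) → (∀ η, H η ≠ 0 → ∀ i, |η i - η0 i| ≤ c0 / L) →
      ∀ (x : E n) (t : ℝ), |t| ≤ c0 * L ^ 2 →
        ‖evo H x t 0‖ ^ 2 ≤ C / L ^ n *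
          ∫ y : E n, ‖(𝓕⁻ H : E n → ℂ) y‖ ^ 2 * (1 + ‖x - y - (2 * t) • η0‖ / L) ^ (-M) := by
  obtain ⟨C, hC, K⟩ := kernel_evo_all n M c0
  refine ⟨C * (1 + c0) ^ n * (1 + c0) ^ M, by positivity, fun L η0 H hL hm hb hs x t ht => ?_⟩
  obtain ⟨hi, h2⟩ := int_of_bdd hm hb hs
  have k := K L η0 H hL hi hs x t 0
  rw [sub_zero] at k
  have h1 : |t| / L ^ 2 ≤ c0 := by rw [div_le_iff₀ (by positivity)]; exact ht
  have h0 : 0 ≤ |t| / L ^ 2 := by positivity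
  refine bochner_of hi h2 (by fun_prop) (fun y => by positivity) (fun y => ?_) (by positivity) (k.trans ?_)
  · exact Real.rpow_le_one_of_one_le_of_nonpos (le_add_of_nonneg_right (by positivity)) (by linarith)
  have hw : ∀ y : E n, wE M (L * (1 + |t| / L ^ 2)) (x - y - (2 * t) • η0) ≤
      (1 + c0) ^ M * (1 + ‖x - y - (2 * t) • η0‖ / L) ^ (-M) := by
    intro y
    unfold wE
    generalize hr : ‖x - y - (2 * t) • η0‖ = r
    have hr0 : 0 ≤ r := hr ▸ norm_nonneg _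
    have a1 : (1 + r / L) / (1 + c0) ≤ 1 + r / (L * (1 + |t| / L ^ 2)) := by
      rw [add_div, div_div]
      refine add_le_add (div_le_one_of_le₀ (by linarith) (by positivity)) ?_
      gcongr
    calc (1 + r / (L * (1 + |t| / L ^ 2))) ^ (-M) ≤ ((1 + r / L) / (1 + c0)) ^ (-M) :=
          Real.rpow_le_rpow_of_nonpos (by positivity) a1 (by linarith)
      _ = _ := by
          rw [Real.div_rpow (by positivity) (by positivity), Real.rpow_neg (x := 1 + c0) (by positivity)]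
          field_simp
  calc _ ≤ ENNReal.ofReal (C * ((1 + c0) ^ n / L ^ n)) * ∫⁻ y : E n, ENNReal.ofReal ((1 + c0) ^ M) *
        (‖evo H y 0 0‖ₑ ^ 2 * ENNReal.ofReal ((1 + ‖x - y - (2 * t) • η0‖ / L) ^ (-M))) := by
        refine mul_le_mul' (ENNReal.ofReal_le_ofReal (by gcongr)) (lintegral_mono fun y => ?_)
        simp only []
        rw [mul_left_comm, ← ENNReal.ofReal_mul (by positivity)]
        exact mul_le_mul' le_rfl (ENNReal.ofReal_le_ofReal (hw y))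
    _ = _ := by
        rw [lintegral_const_mul' _ _ ENNReal.ofReal_ne_top, ← mul_assoc, ← ENNReal.ofReal_mul (by positivity)]
        congr 2
        ring

end Vale.Agent.P076T
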