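import Vale.Agent.P076T.Slab

/-! # P076T : the axioms of the multiscale amplitudes at function level (velocities `2η`) -/

set_option linter.all false

open MeasureTheory Complex Set
open scoped FourierTransform ENNReal

namespace Vale.Agent.P076T

open Vale.Agent.P076

variable {n : ℕ}

theorem half_cap {A ρ : ℝ} (hA : 0 ≤ A) (hρ : 0 < ρ) {v η : E n} (h : ∀ i, |2 * η i - v i| ≤ A / ρ) (i : Fin n) :
    |η i - ((2:ℝ)⁻¹ • v) i| ≤ A / ρ := by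
  have h1 := abs_le.mp (h i)
  have h2 : 0 ≤ A / ρ := by positivity
  rw [PiLp.smul_apply, smul_eq_mul, abs_le]
  constructor <;> linarith

theorem two_half (s : ℝ) (v : E n) : (2 * s) • ((2:ℝ)⁻¹ • v) = s • v := by
  rw [smul_smul]
  congr 1
  ring

/-- **root**, velocity form -/
theorem root_core (n : ℕ) (M A B : ℝ) (hM : (n : ℝ) < M) (hA : 0 ≤ A) (hB : 0 ≤ B) : ∃ C : ℝ, 0 ≤ C ∧
    ∀ (ρ : ℝ) (v : E n) (G : E n → ℂ), 0 < ρ → Integrable G → (∀ η, G η ≠ 0 → ∀ i, |2 * η i - v i| ≤ A / ρ) →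
      ∀ (x x1 : E n) (s s' : ℝ), |s - s'| ≤ B * ρ ^ 2 → ‖x - x1 - (s - s') • v‖ ≤ B * ρ →
        ‖evo G x s 0‖ ≤ C * Real.sqrt (mean ρ M x1 s' G) := by
  obtain ⟨C, hC, h⟩ := root_le n M A B hM hB
  refine ⟨Real.sqrt C, Real.sqrt_nonneg _, fun ρ v G hρ hG hs x x1 s s' h1 h2 => ?_⟩
  have := h ρ ((2:ℝ)⁻¹ • v) G hρ hG (fun η hη => half_cap hA hρ (hs η hη)) x x1 s s' h1 (by rwa [two_half])
  rw [← Real.sqrt_mul hC]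
  exact Real.le_sqrt_of_sq_le this

/-- one cap, velocity form -/
theorem mean_core (n : ℕ) (M A B : ℝ) (hM : (n : ℝ) < M) (hA : 0 ≤ A) (hB : 0 ≤ B) : ∃ C : ℝ, 0 ≤ C ∧
    ∀ (r ρ : ℝ) (v : E n) (G : E n → ℂ), 0 < r → r ≤ ρ → Integrable G →
      (∀ η, G η ≠ 0 → ∀ i, |2 * η i - v i| ≤ A / ρ) →
      ∀ (x0 x1 : E n) (s s' : ℝ), |s - s'| ≤ B * ρ ^ 2 → ‖x0 - x1 - (s - s') • v‖ ≤ B * ρ →
        mean r M x0 s G ≤ C * mean ρ M x1 s' G := by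
  obtain ⟨C, hC, h⟩ := mean_le n M A B hM hB
  refine ⟨C, hC, fun r ρ v G hr hrρ hG hs x0 x1 s s' h1 h2 => ?_⟩
  exact h r ρ ((2:ℝ)⁻¹ • v) G hr hrρ hG (fun η hη => half_cap hA (hr.trans_le hrρ) (hs η hη)) x0 x1 s s' h1
    (by rwa [two_half])

/-- **L1** -/
theorem l1_core (n : ℕ) (M A B : ℝ) (hM : (n : ℝ) < M) (hA : 0 ≤ A) (hB : 0 ≤ B) : ∃ C : ℝ, 0 ≤ C ∧
    ∀ (r ρ : ℝ) (ι : Type) (I : Finset ι) (v : ι → E n) (G : ι → E n → ℂ), 0 < r → r ≤ ρ →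
      (∀ c ∈ I, Integrable (G c)) → (∀ c ∈ I, ∀ η, G c η ≠ 0 → ∀ i, |2 * η i - v c i| ≤ A / ρ) →
      ∀ (x0 : E n) (x1 : ι → E n) (s s' : ℝ), |s - s'| ≤ B * ρ ^ 2 →
        (∀ c ∈ I, ‖x0 - x1 c - (s - s') • v c‖ ≤ B * ρ) →
        Real.sqrt (mean r M x0 s (fun η => ∑ c ∈ I, G c η)) ≤ C * ∑ c ∈ I, Real.sqrt (mean ρ M (x1 c) s' (G c)) := by
  obtain ⟨C, hC, h⟩ := mean_core n M A B hM hA hB
  refine ⟨Real.sqrt C, Real.sqrt_nonneg _, fun r ρ ι I v G hr hrρ hG hs x0 x1 s s' h1 h2 => ?_⟩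
  refine (sqrt_mean_sum hM hr x0 s I hG).trans ?_
  rw [Finset.mul_sum]
  refine Finset.sum_le_sum fun c hc => ?_
  rw [← Real.sqrt_mul hC]
  exact Real.sqrt_le_sqrt (h r ρ (v c) (G c) hr hrρ (hG c hc) (hs c hc) x0 (x1 c) s s' h1 (h2 c hc))

/-- **B_k**: caps of the lattice `ℤⁿ/ρ` (velocities), all velocities in a strip around a `k`-plane -/
theorem bk_core (n : ℕ) (M A B : ℝ) (hM : (4 * n : ℝ) < M) (hA : 1 ≤ A) (hB : 0 ≤ B) : ∃ C : ℝ, 0 ≤ C ∧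
    ∀ (k : ℕ) (r ρ : ℝ) (O : E n ≃ₗᵢ[ℝ] E n) (vs : E n) (ι : Type) (I : Finset ι) (c : ι → Fin n → ℤ)
      (G : ι → E n → ℂ), k ≤ n → 0 < r → r ≤ ρ → (∀ j ∈ I, Integrable (G j)) → Set.InjOn c I →
      (∀ j ∈ I, ∀ η, G j η ≠ 0 → ∀ i, |2 * η i - c j i / ρ| ≤ A / ρ) →
      (∀ j ∈ I, ∀ η, G j η ≠ 0 → ∀ l : Fin n, k ≤ l.val → |O ((2:ℝ) • η - vs) l| ≤ A / ρ) →
      ∀ (σ : Type) (Z : Finset σ) (x : σ → E n) (x0 x1 : E n) (y : ι → E n) (s s' : ℝ),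
        (∀ i ∈ Z, ∀ j ∈ Z, (∀ l, ⌊x i l / r⌋ = ⌊x j l / r⌋) → i = j) → (∀ i ∈ Z, ‖x i - x0‖ ≤ B * ρ) →
        (∀ i ∈ Z, ∀ l : Fin n, k ≤ l.val → |O (x i - x1) l| ≤ B * r) → |s - s'| ≤ B * ρ ^ 2 →
        (∀ j ∈ I, ‖x0 - y j - (s - s') • (WithLp.toLp 2 fun i => (c j i : ℝ) / ρ : E n)‖ ≤ B * ρ) →
        ∑ i ∈ Z, mean r M (x i) s (fun η => ∑ j ∈ I, G j η) ≤
          C * (ρ / r) ^ k * ∑ j ∈ I, mean ρ M (y j) s' (G j) := by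
  have hn : (0:ℝ) ≤ n := Nat.cast_nonneg n
  have hMn : (n : ℝ) < M := by linarith
  have hA0 : 0 ≤ A := by linarith
  obtain ⟨C1, hC1, h1⟩ := mean_slab n M A B hM hA hB
  obtain ⟨C2, hC2, h2⟩ := mean_ort_lat n M A hMn hA0
  obtain ⟨C3, hC3, h3⟩ := mean_core n M A B hMn hA0 hB
  refine ⟨C1 * C2 * C3, by positivity, ?_⟩
  intro k r ρ O vs ι I c G hk hr hrρ hG hc hs hst σ Z x x0 x1 y s s' hx hb hw hss hy
  have hρ : 0 < ρ := hr.trans_le hrρ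
  have a1 := h1 k r ρ O ((2:ℝ)⁻¹ • vs) (fun η => ∑ j ∈ I, G j η) hk hr hrρ (integrable_finsetSum _ hG) ?_ σ Z x x0 x1 s
    hx hb hw
  · have a2 := h2 ρ ι I G c hρ hG hc hs x0 s
    have a3 : ∑ j ∈ I, mean ρ M x0 s (G j) ≤ C3 * ∑ j ∈ I, mean ρ M (y j) s' (G j) := by
      rw [Finset.mul_sum]
      exact Finset.sum_le_sum fun j hj => h3 ρ ρ _ (G j) hρ le_rfl (hG j hj) (hs j hj) x0 (y j) s s' hss (hy j hj)
    calc _ ≤ C1 * (ρ / r) ^ k * mean ρ M x0 s (fun η => ∑ j ∈ I, G j η) := a1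
      _ ≤ C1 * (ρ / r) ^ k * (C2 * (C3 * ∑ j ∈ I, mean ρ M (y j) s' (G j))) := by
          gcongr
          exact a2.trans (by gcongr)
      _ = _ := by ring
  · intro η hη l hl
    obtain ⟨j, hj, hj2⟩ := Finset.exists_ne_zero_of_sum_ne_zero hη
    have b1 := abs_le.mp (hst j hj η hj2 l hl)
    have b2 : O (η - (2:ℝ)⁻¹ • vs) l = 2⁻¹ * O ((2:ℝ) • η - vs) l := by
      rw [show η - (2:ℝ)⁻¹ • vs = (2:ℝ)⁻¹ • ((2:ℝ) • η - vs) by rw [smul_sub, smul_smul]; simp, map_smul]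
      rfl
    have b3 : 0 ≤ A / ρ := by positivity
    rw [b2, abs_le]
    constructor <;> linarith

end Vale.Agent.P076T
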