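import Vale.Agent.P076T.Dir

/-! # P076T : the weights `wE M L v = (1 + |v|/L)^(-M)` -/

set_option linter.all false

open MeasureTheory Complex Set
open scoped FourierTransform ENNReal

namespace Vale.Agent.P076T

open Vale.Agent.P076
open Vale.Agent.P076T.LO

variable {n : ℕ}

theorem wE_pos {M L : ℝ} (hL : 0 < L) (v : E n) : 0 < wE M L v := by
  unfold wE
  positivity

theorem wE_le_one {M L : ℝ} (hM : 0 ≤ M) (hL : 0 < L) (v : E n) : wE M L v ≤ 1 := by
  unfold wE
  exact Real.rpow_le_one_of_one_le_of_nonpos (le_add_of_nonneg_right (by positivity)) (by linarith)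

theorem wE_cont {M L : ℝ} (hL : 0 < L) : Continuous (wE M L : E n → ℝ) := by
  unfold wE
  refine Continuous.rpow_const (by fun_prop) fun v => Or.inl ?_
  positivity

theorem wE_meas (M L : ℝ) : Measurable (wE M L : E n → ℝ) := by
  unfold wE
  fun_prop

theorem wE_neg (M L : ℝ) (v : E n) : wE M L (-v) = wE M L v := by
  unfold wE
  rw [norm_neg]

theorem wE_sub_comm (M L : ℝ) (a b : E n) : wE M L (a - b) = wE M L (b - a) := by
  unfold wE
  rw [norm_sub_rev]

theorem wE_anti {M M' L : ℝ} (h : M ≤ M') (hL : 0 < L) (v : E n) : wE M' L v ≤ wE M L v := by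
  unfold wE
  exact Real.rpow_le_rpow_of_exponent_le (le_add_of_nonneg_right (by positivity)) (by linarith)

theorem wE_add {M M' L : ℝ} (hL : 0 < L) (v : E n) : wE (M + M') L v = wE M L v * wE M' L v := by
  unfold wE
  rw [← Real.rpow_add (by positivity)]
  congr 1
  ring

/-- the basic comparison of negative powers -/
theorem rp_le {M a b K : ℝ} (hM : 0 ≤ M) (ha : 0 < a) (hb : 0 < b) (hK : 0 < K) (h : b ≤ K * a) :
    a ^ (-M) ≤ K ^ M * b ^ (-M) := by
  have h1 : (K * a) ^ (-M) ≤ b ^ (-M) := Real.rpow_le_rpow_of_nonpos hb h (by linarith)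
  rw [Real.mul_rpow hK.le ha.le, Real.rpow_neg hK.le] at h1
  have h2 : 0 < K ^ M := Real.rpow_pos_of_pos hK M
  rwa [inv_mul_le_iff₀ h2] at h1

theorem wE_cmp {M L L' K : ℝ} (hM : 0 ≤ M) (hL : 0 < L) (hL' : 0 < L') (hK : 0 < K) {v v' : E n}
    (h : 1 + ‖v'‖ / L' ≤ K * (1 + ‖v‖ / L)) : wE M L v ≤ K ^ M * wE M L' v' := by
  unfold wE
  exact rp_le hM (by positivity) (by positivity) hK h

theorem wE_mono {M L L' : ℝ} (hM : 0 ≤ M) (hL : 0 < L) (h : L ≤ L') (v : E n) : wE M L v ≤ wE M L' v := by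
  have := wE_cmp hM hL (hL.trans_le h) one_pos (v := v) (v' := v) (by
    rw [one_mul]
    gcongr)
  simpa using this

/-- Peetre -/
theorem wE_peetre {M L : ℝ} (hM : 0 ≤ M) (hL : 0 < L) (a b : E n) :
    wE M L a ≤ (1 + ‖a - b‖ / L) ^ M * wE M L b := by
  refine wE_cmp hM hL hL (by positivity) ?_
  have h1 : ‖b‖ ≤ ‖a‖ + ‖a - b‖ := by
    calc ‖b‖ = ‖a - (a - b)‖ := by congr 1; abel
      _ ≤ _ := norm_sub_le _ _
  have h2 : ‖b‖ / L ≤ ‖a‖ / L + ‖a - b‖ / L := by
    rw [← add_div]; gcongr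
  have h3 : 0 ≤ ‖a‖ / L := by positivity
  have h4 : 0 ≤ ‖a - b‖ / L := by positivity
  nlinarith [mul_nonneg h3 h4]

theorem wE_shift {M L B : ℝ} (hM : 0 ≤ M) (hL : 0 < L) (hB : 0 ≤ B) {a b : E n} (h : ‖a - b‖ ≤ B * L) :
    wE M L a ≤ (1 + B) ^ M * wE M L b := by
  refine (wE_peetre hM hL a b).trans (mul_le_mul_of_nonneg_right ?_ (wE_pos hL b).le)
  refine Real.rpow_le_rpow (by positivity) ?_ hM
  have : ‖a - b‖ / L ≤ B := by rwa [div_le_iff₀ hL]
  linarith

theorem wE_scale {M L τ : ℝ} (hM : 0 ≤ M) (hL : 0 < L) (hτ : 1 ≤ τ) (v : E n) :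
    wE M (L * τ) v ≤ τ ^ M * wE M L v := by
  refine wE_cmp hM (by positivity) hL (by linarith) ?_
  have : τ * (1 + ‖v‖ / (L * τ)) = τ + ‖v‖ / L := by
    field_simp
  rw [this]
  linarith

/-- the integral of the weight -/
noncomputable def cI (n : ℕ) (M : ℝ) : ℝ := ∫ v : E n, (1 + ‖v‖) ^ (-M)

theorem cI_nonneg (n : ℕ) (M : ℝ) : 0 ≤ cI n M := integral_nonneg fun v => by positivity

theorem wE_eq_smul {M L : ℝ} (hL : 0 < L) (v : E n) : wE M L v = (1 + ‖L⁻¹ • v‖) ^ (-M) := by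
  unfold wE
  rw [norm_smul, Real.norm_of_nonneg (inv_pos.mpr hL).le, div_eq_inv_mul]

theorem wE_integrable {M L : ℝ} (hM : (n : ℝ) < M) (hL : 0 < L) (a : E n) :
    Integrable (fun x : E n => wE M L (x - a)) := by
  have h := integrable_one_add_norm (E := E n) (μ := volume) (r := M) (by simpa using hM)
  have h2 := h.comp_smul (inv_ne_zero hL.ne')
  have h3 := h2.comp_sub_right a
  refine h3.congr (Filter.Eventually.of_forall fun x => ?_)
  simp only
  rw [wE_eq_smul hL]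

theorem wE_integral {M L : ℝ} (hL : 0 < L) (a : E n) : ∫ x : E n, wE M L (x - a) = L ^ n * cI n M := by
  rw [integral_sub_right_eq_self (μ := volume) (fun x : E n => wE M L x) a]
  simp_rw [wE_eq_smul hL]
  have h := Measure.integral_comp_inv_smul_of_nonneg (μ := (volume : Measure (E n)))
    (fun v : E n => (1 + ‖v‖) ^ (-M)) hL.le
  rw [h]
  simp [cI]

theorem wE_lint {M L : ℝ} (hM : (n : ℝ) < M) (hL : 0 < L) (a : E n) :
    ∫⁻ x : E n, ENNReal.ofReal (wE M L (x - a)) = ENNReal.ofReal (L ^ n * cI n M) := by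
  rw [← ofReal_integral_eq_lintegral_ofReal (wE_integrable hM hL a)
    (Filter.Eventually.of_forall fun x => (wE_pos hL _).le), wE_integral hL]

/-- far from the centre the fine weight is small -/
theorem wE_far {M r ρ : ℝ} (hM : 0 ≤ M) (hr : 0 < r) (hρ : 0 < ρ) {v v' : E n} (h1 : ρ ≤ ‖v'‖) (h2 : ‖v'‖ ≤ 2 * ‖v‖) :
    wE M r v ≤ 4 ^ M * (r / ρ) ^ M * wE M ρ v' := by
  rw [← Real.mul_rpow (by norm_num) (by positivity)]
  refine wE_cmp hM hr hρ (by positivity) ?_
  have h3 : 1 ≤ ‖v'‖ / ρ := by rwa [le_div_iff₀ hρ, one_mul]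
  have h4 : 4 * (r / ρ) * (1 + ‖v‖ / r) = 4 * (r / ρ) + 4 * (‖v‖ / ρ) := by
    field_simp
  have h5 : ‖v'‖ / ρ ≤ 2 * (‖v‖ / ρ) := by
    rw [← mul_div_assoc]; gcongr
  have h6 : 0 ≤ r / ρ := by positivity
  rw [h4]
  linarith

/-- pointwise form of the convolution of two weights -/
theorem wE_mul_le {M r ρ : ℝ} (hM : 0 ≤ M) (hr : 0 < r) (hρ : 0 < ρ) (a b x : E n) :
    wE M r (x - a) * wE M ρ (x - b) ≤ 4 ^ M * wE M ρ (a - b) * (wE M r (x - a) + (r / ρ) ^ M * wE M ρ (x - b)) := by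
  have p1 := wE_pos (M := M) hr (x - a)
  have p2 := wE_pos (M := M) hρ (x - b)
  have p3 := wE_pos (M := M) hρ (a - b)
  have p4 : 0 < (r / ρ) ^ M := by positivity
  have p5 : 0 < (4:ℝ) ^ M := by positivity
  have tri : ‖a - b‖ ≤ ‖x - a‖ + ‖x - b‖ := by
    calc ‖a - b‖ = ‖(x - b) - (x - a)‖ := by congr 1; abel
      _ ≤ _ := by rw [add_comm]; exact norm_sub_le _ _
  by_cases h : ‖a - b‖ ≤ 2 * ‖x - b‖ ∨ ‖a - b‖ ≤ ρ
  · have h1 : wE M ρ (x - b) ≤ 4 ^ M * wE M ρ (a - b) := by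
      refine wE_cmp hM hρ hρ (by norm_num) ?_
      have h0 : 0 ≤ ‖x - b‖ / ρ := by positivity
      rcases h with h | h
      · have : ‖a - b‖ / ρ ≤ 2 * (‖x - b‖ / ρ) := by
          rw [← mul_div_assoc]; gcongr
        linarith
      · have : ‖a - b‖ / ρ ≤ 1 := by rwa [div_le_one hρ]
        linarith
    calc wE M r (x - a) * wE M ρ (x - b) ≤ wE M r (x - a) * (4 ^ M * wE M ρ (a - b)) := by gcongr
      _ = 4 ^ M * wE M ρ (a - b) * wE M r (x - a) := by ring
      _ ≤ _ := by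
          gcongr
          exact le_add_of_nonneg_right (by positivity)
  · push Not at h
    have h1 := wE_far hM hr hρ (v := x - a) (v' := a - b) h.2.le (by linarith [h.1])
    calc wE M r (x - a) * wE M ρ (x - b) ≤ (4 ^ M * (r / ρ) ^ M * wE M ρ (a - b)) * wE M ρ (x - b) := by gcongr
      _ = 4 ^ M * wE M ρ (a - b) * ((r / ρ) ^ M * wE M ρ (x - b)) := by ring
      _ ≤ _ := by
          gcongr
          exact le_add_of_nonneg_left p1.le

theorem ratio_pow {M r ρ : ℝ} {k : ℕ} (hM : (k : ℝ) ≤ M) (hr : 0 < r) (h : r ≤ ρ) : (r / ρ) ^ M ≤ (r / ρ) ^ k := by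
  have hρ : 0 < ρ := hr.trans_le h
  rw [← Real.rpow_natCast]
  exact Real.rpow_le_rpow_of_exponent_ge (by positivity) (by rwa [div_le_one hρ]) hM

/-- **convolution of a fine and a coarse weight** -/
theorem wE_conv {M r ρ : ℝ} (hM : (n : ℝ) < M) (hr : 0 < r) (h : r ≤ ρ) (a b : E n) :
    ∫⁻ x : E n, ENNReal.ofReal (wE M r (x - a)) * ENNReal.ofReal (wE M ρ (x - b)) ≤
      ENNReal.ofReal (2 * 4 ^ M * cI n M * r ^ n * wE M ρ (a - b)) := by
  have hρ : 0 < ρ := hr.trans_le h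
  have hM0 : 0 ≤ M := (Nat.cast_nonneg n).trans hM.le
  have p3 := wE_pos (M := M) hρ (a - b)
  have hc := cI_nonneg n M
  have hi : Integrable (fun x : E n => 4 ^ M * wE M ρ (a - b) * (wE M r (x - a) + (r / ρ) ^ M * wE M ρ (x - b))) :=
    ((wE_integrable hM hr a).add ((wE_integrable hM hρ b).const_mul _)).const_mul _
  calc ∫⁻ x : E n, ENNReal.ofReal (wE M r (x - a)) * ENNReal.ofReal (wE M ρ (x - b))
      ≤ ∫⁻ x : E n, ENNReal.ofReal (4 ^ M * wE M ρ (a - b) * (wE M r (x - a) + (r / ρ) ^ M * wE M ρ (x - b))) := by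
        refine lintegral_mono fun x => ?_
        rw [← ENNReal.ofReal_mul (wE_pos hr _).le]
        exact ENNReal.ofReal_le_ofReal (wE_mul_le hM0 hr hρ a b x)
    _ = ENNReal.ofReal (4 ^ M * wE M ρ (a - b) * (r ^ n * cI n M + (r / ρ) ^ M * (ρ ^ n * cI n M))) := by
        rw [← ofReal_integral_eq_lintegral_ofReal hi (Filter.Eventually.of_forall fun x => by
          have := wE_pos (M := M) hr (x - a)
          have := wE_pos (M := M) hρ (x - b)
          positivity), integral_const_mul, integral_add (wE_integrable hM hr a) ((wE_integrable hM hρ b).const_mul _),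
          integral_const_mul, wE_integral hr, wE_integral hρ]
    _ ≤ _ := by
        refine ENNReal.ofReal_le_ofReal ?_
        have h1 := ratio_pow hM.le hr h
        have h2 : (r / ρ) ^ M * (ρ ^ n * cI n M) ≤ r ^ n * cI n M := by
          calc (r / ρ) ^ M * (ρ ^ n * cI n M) ≤ (r / ρ) ^ n * (ρ ^ n * cI n M) := by gcongr
            _ = _ := by rw [div_pow]; field_simp
        calc 4 ^ M * wE M ρ (a - b) * (r ^ n * cI n M + (r / ρ) ^ M * (ρ ^ n * cI n M))
            ≤ 4 ^ M * wE M ρ (a - b) * (r ^ n * cI n M + r ^ n * cI n M) := by gcongr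
          _ = _ := by ring

/-- lattice sum of the weights: one point per `r`-cube -/
theorem wE_lat {ι : Type*} {M r : ℝ} (hM : 2 * n ≤ M) (hr : 0 < r) (Z : Finset ι) (x : ι → E n)
    (hx : ∀ i ∈ Z, ∀ j ∈ Z, (∀ k, ⌊x i k / r⌋ = ⌊x j k / r⌋) → i = j) (y : E n) :
    ∑ i ∈ Z, wE M r (y - x i) ≤ cW n := by
  have h := lat_sum hM Z (fun i => r⁻¹ • x i) (by
    intro i hi j hj hk
    refine hx i hi j hj fun k => ?_
    have := hk k
    simpa [div_eq_inv_mul] using this) (r⁻¹ • y)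
  refine le_trans (le_of_eq ?_) h
  apply Finset.sum_congr rfl
  intro i _
  rw [wE_sub_comm, wE_eq_smul hr, smul_sub]

/-- number of points, one per `r`-cube, in a ball -/
theorem card_ball {ι : Type*} {r T : ℝ} (hr : 0 < r) (hT : 0 ≤ T) (Z : Finset ι) (x : ι → E n)
    (hx : ∀ i ∈ Z, ∀ j ∈ Z, (∀ k, ⌊x i k / r⌋ = ⌊x j k / r⌋) → i = j) (x0 : E n)
    (hb : ∀ i ∈ Z, ∀ k, |x i k - x0 k| ≤ T) : (Z.card : ℝ) ≤ (2 * T / r + 2) ^ n := by
  classical
  set box : Finset (Fin n → ℤ) :=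
    Fintype.piFinset fun k => Finset.Icc ⌊(x0 k - T) / r⌋ ⌊(x0 k + T) / r⌋ with hbox
  have h1 : Z.card ≤ box.card := by
    refine Finset.card_le_card_of_injOn (fun i k => ⌊x i k / r⌋) ?_ ?_
    · intro i hi
      have hi' : i ∈ Z := hi
      rw [hbox, Finset.mem_coe, Fintype.mem_piFinset]
      intro k
      have := abs_le.mp (hb i hi' k)
      rw [Finset.mem_Icc]
      constructor
      · apply Int.floor_mono
        gcongr
        linarith
      · apply Int.floor_mono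
        gcongr
        linarith
    · intro i hi j hj hij
      exact hx i hi j hj fun k => congrFun hij k
  have h2 : (box.card : ℝ) ≤ (2 * T / r + 2) ^ n := by
    rw [hbox, Fintype.card_piFinset]
    push_cast
    calc ∏ k : Fin n, ((Finset.Icc ⌊(x0 k - T) / r⌋ ⌊(x0 k + T) / r⌋).card : ℝ) ≤ ∏ _k : Fin n, (2 * T / r + 2) := by
          refine Finset.prod_le_prod (fun _ _ => by positivity) fun k _ => ?_
          rw [Int.card_Icc]
          have h3 := Int.floor_le ((x0 k + T) / r)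
          have h4 := Int.lt_floor_add_one ((x0 k - T) / r)
          have h5 : (x0 k + T) / r - (x0 k - T) / r = 2 * T / r := by ring
          have h6 : ((⌊(x0 k + T) / r⌋ + 1 - ⌊(x0 k - T) / r⌋ : ℤ) : ℝ) ≤ 2 * T / r + 2 := by
            push_cast
            linarith
          have h7 : (0:ℝ) ≤ 2 * T / r + 2 := by positivity
          rcases le_total 0 (⌊(x0 k + T) / r⌋ + 1 - ⌊(x0 k - T) / r⌋) with h8 | h8
          · have : (((⌊(x0 k + T) / r⌋ + 1 - ⌊(x0 k - T) / r⌋).toNat : ℤ) : ℝ) =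
                ((⌊(x0 k + T) / r⌋ + 1 - ⌊(x0 k - T) / r⌋ : ℤ) : ℝ) := by
              rw [Int.toNat_of_nonneg h8]
            rw [Int.cast_natCast] at this
            linarith
          · rw [Int.toNat_eq_zero.mpr h8]
            simpa using h7
      _ = _ := by simp
  exact (Nat.cast_le.mpr h1).trans h2

end Vale.Agent.P076T
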