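import Vale.Agent.P076T.Ker
import Vale.Agent.P076.H791.Basic

/-! # P076T : lattice sums of weights and the trivial bound, any dimension -/

set_option linter.all false

open MeasureTheory Complex Set
open scoped FourierTransform ENNReal

namespace Vale.Agent.P076T

open Vale.Agent.P076
open Vale.Agent.P076.H780 (w1 w1_nonneg w1_summable w1_le)
open Vale.Agent.P076.H791 (sft norm_sft evo_sft)

variable {n : ℕ}

theorem sum_prod_le {κ : Type*} [Fintype κ] [DecidableEq κ] {w : ℤ → ℝ} (h0 : ∀ m, 0 ≤ w m) (hs : Summable w)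
    (U : Finset (κ → ℤ)) : ∑ p ∈ U, ∏ k, w (p k) ≤ (∑' m, w m) ^ Fintype.card κ := by
  calc ∑ p ∈ U, ∏ k, w (p k) ≤ ∑ p ∈ Fintype.piFinset (fun k => U.image fun p => p k), ∏ k, w (p k) := by
        refine Finset.sum_le_sum_of_subset_of_nonneg ?_ fun p _ _ => Finset.prod_nonneg fun k _ => h0 _
        intro p hp
        rw [Fintype.mem_piFinset]
        exact fun k => Finset.mem_image_of_mem _ hp
    _ = ∏ k, ∑ m ∈ U.image (fun p => p k), w m := (Finset.prod_univ_sum _ fun _ m => w m).symm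
    _ ≤ ∏ _k : κ, ∑' m, w m := Finset.prod_le_prod (fun k _ => Finset.sum_nonneg fun m _ => h0 m)
        fun k _ => hs.sum_le_tsum _ fun m _ => h0 m
    _ = _ := by rw [Finset.prod_const, Finset.card_univ]

/-- the constant of the lattice sums -/
noncomputable def cW (d : ℕ) : ℝ := (∑' m, w1 m) ^ d

theorem cW_nonneg (d : ℕ) : 0 ≤ cW d := pow_nonneg (tsum_nonneg w1_nonneg) d

/-- **lattice sum**, product weights: one point per unit cube -/
theorem lat_prod {ι κ : Type*} [Fintype κ] (A : Finset ι) (x : ι → κ → ℝ)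
    (hx : ∀ i ∈ A, ∀ j ∈ A, (∀ k, ⌊x i k⌋ = ⌊x j k⌋) → i = j) (y : κ → ℝ) :
    ∑ i ∈ A, ∏ k, ((1 + |x i k - y k|) ^ 2)⁻¹ ≤ cW (Fintype.card κ) := by
  classical
  set f : ι → κ → ℤ := fun i k => ⌊x i k⌋ - ⌊y k⌋ with hf
  have hinj : Set.InjOn f A := by
    intro i hi j hj h
    refine hx i hi j hj fun k => ?_
    have := congrFun h k
    simp only [hf] at this
    omega
  calc ∑ i ∈ A, ∏ k, ((1 + |x i k - y k|) ^ 2)⁻¹ ≤ ∑ i ∈ A, ∏ k, w1 (f i k) :=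
        Finset.sum_le_sum fun i _ => Finset.prod_le_prod (fun k _ => by positivity) fun k _ => w1_le _ _
    _ = ∑ p ∈ A.image f, ∏ k, w1 (p k) := by rw [Finset.sum_image hinj]
    _ ≤ _ := sum_prod_le w1_nonneg w1_summable _

theorem w_le_prod {M : ℝ} (hM : 2 * n ≤ M) (v : E n) :
    (1 + ‖v‖) ^ (-M) ≤ ∏ k, ((1 + |v k|) ^ 2)⁻¹ := by
  have hn : 0 ≤ ‖v‖ := norm_nonneg v
  calc (1 + ‖v‖) ^ (-M) ≤ (1 + ‖v‖) ^ (-((2 * n : ℕ) : ℝ)) :=
        Real.rpow_le_rpow_of_exponent_le (by linarith) (by push_cast; linarith)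
    _ = ∏ _k : Fin n, ((1 + ‖v‖) ^ 2)⁻¹ := by
        rw [Real.rpow_neg (by linarith), Real.rpow_natCast, Finset.prod_const, Finset.card_univ,
          Fintype.card_fin, inv_pow, ← pow_mul]
    _ ≤ _ := Finset.prod_le_prod (fun k _ => by positivity) fun k _ => by
        have := abs_apply_le v k
        gcongr

/-- **lattice sum**: one point per unit cube -/
theorem lat_sum {ι : Type*} {M : ℝ} (hM : 2 * n ≤ M) (A : Finset ι) (x : ι → E n)
    (hx : ∀ i ∈ A, ∀ j ∈ A, (∀ k, ⌊x i k⌋ = ⌊x j k⌋) → i = j) (y : E n) :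
    ∑ i ∈ A, (1 + ‖x i - y‖) ^ (-M) ≤ cW n := by
  have h := lat_prod A (fun i k => x i k) hx (fun k => y k)
  rw [Fintype.card_fin] at h
  exact (Finset.sum_le_sum fun i _ => w_le_prod hM (x i - y)).trans h

theorem measurable_sft (s : ℝ) {G : E n → ℂ} (hG : Measurable G) : Measurable (sft s G) := by
  unfold sft
  refine Measurable.mul ?_ hG
  fun_prop

theorem sft_ne {s : ℝ} {G : E n → ℂ} {η : E n} (h : sft s G η ≠ 0) : G η ≠ 0 := by
  intro h0; apply h; unfold sft; rw [h0, mul_zero]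

/-- one time slab -/
theorem one_slab (n : ℕ) (c0 : ℝ) : ∃ C : ℝ, 0 ≤ C ∧ ∀ (G : E n → ℂ), Measurable G → (∃ b : ℝ, ∀ η, ‖G η‖ ≤ b) →
    (∀ η, G η ≠ 0 → ∀ i, |η i| ≤ c0) → ∀ {ι : Type} (A : Finset ι) (x : ι → E n) (t : ι → ℝ) (s : ℝ),
      (∀ i ∈ A, |t i - s| ≤ 1) → (∀ i ∈ A, ∀ j ∈ A, (∀ k, ⌊x i k⌋ = ⌊x j k⌋) → i = j) →
        ∑ i ∈ A, ‖evo G (x i) (t i) 0‖ ^ 2 ≤ C * ∫ η, ‖G η‖ ^ 2 := by
  obtain ⟨C, hC, K⟩ := kernel_asm n (2 * n) (max c0 1) (by positivity) (by positivity)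
  refine ⟨C * cW n, mul_nonneg hC (cW_nonneg n), ?_⟩
  intro G hm hb hs ι A x t s ht hx
  have hb' : ∃ b : ℝ, ∀ η, ‖sft s G η‖ ≤ b := by
    obtain ⟨b, hb⟩ := hb; exact ⟨b, fun η => by rw [norm_sft]; exact hb η⟩
  have hs' : ∀ η, sft s G η ≠ 0 → ∀ i, |η i - (0 : E n) i| ≤ max c0 1 / 1 := by
    intro η hη i
    have := (hs η (sft_ne hη) i).trans (le_max_left _ 1)
    simpa using this
  have hmm := measurable_sft s hm
  obtain ⟨hi, h2⟩ := int_of_bdd hmm hb' hs'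
  obtain ⟨hsq, hpl⟩ := planch hi h2
  set g : E n → ℝ := fun y => ‖(𝓕⁻ (sft s G) : E n → ℂ) y‖ ^ 2 with hg
  have h1 : ∀ i ∈ A, ‖evo G (x i) (t i) 0‖ ^ 2 ≤ C * ∫ y : E n, g y * (1 + ‖x i - y‖) ^ (-(2 * n : ℝ)) := by
    intro i hiA
    have h := K 1 0 (sft s G) one_pos hmm hb' hs' (x i) (t i - s)
      (by rw [one_pow, mul_one]; exact (ht i hiA).trans (le_max_right _ _))
    rw [evo_sft] at h
    simpa using h
  have hint : ∀ i ∈ A, Integrable fun y : E n => g y * (1 + ‖x i - y‖) ^ (-(2 * n : ℝ)) := by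
    intro i _
    refine hsq.mono' ?_ ?_
    · refine hsq.aestronglyMeasurable.mul ?_
      refine Measurable.aestronglyMeasurable ?_
      fun_prop
    · filter_upwards with y
      have h0 : (1 + ‖x i - y‖) ^ (-(2 * n : ℝ)) ≤ 1 :=
        Real.rpow_le_one_of_one_le_of_nonpos (by have := norm_nonneg (x i - y); linarith)
          (neg_nonpos.2 (by positivity))
      have h1 : 0 ≤ (1 + ‖x i - y‖) ^ (-(2 * n : ℝ)) := by positivity
      have h2 : 0 ≤ g y := by rw [hg]; positivity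
      rw [Real.norm_eq_abs, abs_of_nonneg (mul_nonneg h2 h1)]
      exact mul_le_of_le_one_right h2 h0
  calc ∑ i ∈ A, ‖evo G (x i) (t i) 0‖ ^ 2 ≤ ∑ i ∈ A, C * ∫ y : E n, g y * (1 + ‖x i - y‖) ^ (-(2 * n : ℝ)) :=
        Finset.sum_le_sum h1
    _ = C * ∫ y : E n, ∑ i ∈ A, g y * (1 + ‖x i - y‖) ^ (-(2 * n : ℝ)) := by
        rw [← Finset.mul_sum, integral_finsetSum _ hint]
    _ ≤ C * ∫ y : E n, g y * cW n := by
        refine mul_le_mul_of_nonneg_left ?_ hC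
        refine integral_mono (integrable_finsetSum _ hint) (hsq.mul_const _) fun y => ?_
        simp only []
        rw [← Finset.mul_sum]
        exact mul_le_mul_of_nonneg_left (lat_sum le_rfl A x hx y) (by rw [hg]; positivity)
    _ = C * cW n * ∫ η, ‖G η‖ ^ 2 := by
        rw [integral_mul_const, hpl]
        simp_rw [norm_sft]
        ring

/-- **trivial bound**: points in `ℝⁿ × [0, R]`, at most one in each unit cube -/
theorem triv (n : ℕ) (c0 : ℝ) : ∃ C : ℝ, 0 ≤ C ∧ ∀ {ι : Type} (R : ℝ) (G : E n → ℂ) (A : Finset ι) (x : ι → E n)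
    (t : ι → ℝ), 1 ≤ R → Measurable G → (∃ b : ℝ, ∀ η, ‖G η‖ ≤ b) → (∀ η, G η ≠ 0 → ∀ i, |η i| ≤ c0) →
      (∀ i ∈ A, 0 ≤ t i) → (∀ i ∈ A, t i ≤ R) →
        (∀ i ∈ A, ∀ j ∈ A, (∀ k, ⌊x i k⌋ = ⌊x j k⌋) → ⌊t i⌋ = ⌊t j⌋ → i = j) →
          ∑ i ∈ A, ‖evo G (x i) (t i) 0‖ ^ 2 ≤ C * R * ∫ η, ‖G η‖ ^ 2 := by
  obtain ⟨C, hC, K⟩ := one_slab n c0
  refine ⟨2 * C, by positivity, ?_⟩
  intro ι R G A x t hR hm hb hs h0 h1 hx
  have hmaps : ∀ i ∈ A, ⌊t i⌋ ∈ Finset.Icc (0 : ℤ) ⌊R⌋ := by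
    intro i hi
    rw [Finset.mem_Icc]
    exact ⟨Int.floor_nonneg.2 (h0 i hi), Int.floor_le_floor (h1 i hi)⟩
  rw [← Finset.sum_fiberwise_of_maps_to hmaps]
  have hG : 0 ≤ ∫ η, ‖G η‖ ^ 2 := integral_nonneg fun η => by positivity
  calc ∑ m ∈ Finset.Icc (0 : ℤ) ⌊R⌋, ∑ i ∈ A with ⌊t i⌋ = m, ‖evo G (x i) (t i) 0‖ ^ 2
      ≤ ∑ m ∈ Finset.Icc (0 : ℤ) ⌊R⌋, C * ∫ η, ‖G η‖ ^ 2 := by
        refine Finset.sum_le_sum fun m _ => ?_
        refine K G hm hb hs _ x t m ?_ ?_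
        · intro i hi
          rw [Finset.mem_filter] at hi
          rw [← hi.2, abs_le]
          have a1 := Int.floor_le (t i)
          have a2 := Int.lt_floor_add_one (t i)
          constructor <;> linarith
        · intro i hi j hj hk
          rw [Finset.mem_filter] at hi hj
          exact hx i hi.1 j hj.1 hk (by rw [hi.2, hj.2])
    _ = (⌊R⌋ + 1 : ℤ).toNat * (C * ∫ η, ‖G η‖ ^ 2) := by
        rw [Finset.sum_const, nsmul_eq_mul, Int.card_Icc, sub_zero]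
    _ ≤ (2 * R) * (C * ∫ η, ‖G η‖ ^ 2) := by
        refine mul_le_mul_of_nonneg_right ?_ (by positivity)
        have hf : 0 ≤ ⌊R⌋ + 1 := by have := Int.floor_nonneg.2 (by linarith : (0 : ℝ) ≤ R); omega
        have : ((⌊R⌋ + 1 : ℤ).toNat : ℝ) = ((⌊R⌋ + 1 : ℤ) : ℝ) := by
          exact_mod_cast Int.toNat_of_nonneg hf
        rw [this]
        push_cast
        have := Int.floor_le R
        linarith
    _ = 2 * C * R * ∫ η, ‖G η‖ ^ 2 := by ring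

end Vale.Agent.P076T
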