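import Vale.Agent.P076T.OrtW
import Vale.Agent.P076T.Triv

/-! # P076T : local constancy and orthogonality of `evo` along arbitrary space-time vectors -/

set_option linter.all false

open MeasureTheory Complex Set
open scoped FourierTransform ENNReal

namespace Vale.Agent.P076T

open Vale.Agent.P076
open Vale.Agent.P122.H84 (ee norm_ee ee_add ee_zero conj_ee continuous_ee measurable_ee)
open Vale.Agent.P076T.LO

variable {n : ℕ} {κ : Type} [Fintype κ]

theorem evo_ee (G : E n → ℂ) (x : E n) (s : ℝ) :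
    evo G x s 0 = ∫ η, G η * ee (inner ℝ x η - s * ‖η‖ ^ 2) := by
  unfold evo ee
  congr 1
  ext η
  simp [mul_comm]

theorem enorm_ee (a : ℝ) : ‖ee a‖ₑ = 1 := by
  rw [← ofReal_norm_eq_enorm, norm_ee]; simp

theorem mod_int {G : E n → ℂ} (hG : Integrable G) (x : E n) (s : ℝ) :
    Integrable (fun η : E n => G η * ee (inner ℝ x η - s * ‖η‖ ^ 2)) := by
  refine hG.mul_bdd (c := 1) ?_ ?_
  · exact (by fun_prop : Continuous fun η : E n => ee (inner ℝ x η - s * ‖η‖ ^ 2)).aestronglyMeasurable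
  · exact Filter.Eventually.of_forall fun y => by rw [norm_ee]

theorem evo_bd (G : E n → ℂ) (x : E n) (s : ℝ) : ‖evo G x s 0‖ ≤ ∫ η, ‖G η‖ := by
  rw [evo_ee]
  refine (norm_integral_le_integral_norm _).trans (le_of_eq ?_)
  congr 1
  ext η
  rw [norm_mul, norm_ee, mul_one]

theorem evo_cont {G : E n → ℂ} (hG : Integrable G) : Continuous (fun z : E n × ℝ => evo G z.1 z.2 0) := by
  simp_rw [evo_ee]
  refine continuous_of_dominated (bound := fun η => ‖G η‖) ?_ ?_ hG.norm ?_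
  · intro z
    exact (mod_int hG z.1 z.2).aestronglyMeasurable
  · intro z
    exact Filter.Eventually.of_forall fun y => by rw [norm_mul, norm_ee, mul_one]
  · refine Filter.Eventually.of_forall fun η => ?_
    fun_prop

theorem evo_cont_x {G : E n → ℂ} (hG : Integrable G) (s : ℝ) : Continuous (fun x : E n => evo G x s 0) := by
  have h : Continuous (fun x : E n => (x, s)) := by fun_prop
  have h2 := (evo_cont hG).comp h
  simpa only [Function.comp_def] using h2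

theorem evo_add {G H : E n → ℂ} (hG : Integrable G) (hH : Integrable H) (x : E n) (s : ℝ) :
    evo (G + H) x s 0 = evo G x s 0 + evo H x s 0 := by
  simp_rw [evo_ee]
  rw [← integral_add (mod_int hG x s) (mod_int hH x s)]
  congr 1
  ext η
  rw [Pi.add_apply, add_mul]

theorem evo_sum {ι : Type*} (I : Finset ι) {G : ι → E n → ℂ} (hG : ∀ k ∈ I, Integrable (G k)) (x : E n) (s : ℝ) :
    evo (fun η => ∑ k ∈ I, G k η) x s 0 = ∑ k ∈ I, evo (G k) x s 0 := by
  simp_rw [evo_ee]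
  rw [← integral_finsetSum _ fun k hk => mod_int (hG k hk) x s]
  congr 1
  ext η
  rw [Finset.sum_mul]

/-- dual coordinates -/
noncomputable def dco (e : κ → E n) (τ c : κ → ℝ) (η : E n) : κ → ℝ :=
  fun l => inner ℝ (e l) η - τ l * ‖η‖ ^ 2 - c l

theorem dco_meas (e : κ → E n) (τ c : κ → ℝ) : Measurable (dco e τ c) := by
  apply measurable_pi_lambda
  intro l
  unfold dco
  exact (by fun_prop : Continuous fun η : E n => inner ℝ (e l) η - τ l * ‖η‖ ^ 2 - c l).measurable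

theorem evo_UU (G : E n → ℂ) (x : E n) (s : ℝ) (e : κ → E n) (τ c : κ → ℝ) (t : κ → ℝ) :
    evo G (x + ∑ l, t l • e l) (s + ∑ l, t l * τ l) 0 = ee (∑ l, t l * c l) *
      UU volume (dco e τ c) (fun η => G η * ee (inner ℝ x η - s * ‖η‖ ^ 2)) t := by
  rw [evo_ee]
  unfold UU
  rw [← integral_const_mul]
  congr 1
  ext η
  have h : (inner ℝ (x + ∑ l, t l • e l) η - (s + ∑ l, t l * τ l) * ‖η‖ ^ 2 : ℝ) =
      (∑ l, t l * c l) + ((inner ℝ x η - s * ‖η‖ ^ 2) + ∑ l, t l * dco e τ c η l) := by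
    rw [inner_add_left, sum_inner]
    simp only [real_inner_smul_left, dco]
    have : ∑ l, t l * (inner ℝ (e l) η - τ l * ‖η‖ ^ 2 - c l) =
        ∑ l, t l * inner ℝ (e l) η - (∑ l, t l * τ l) * ‖η‖ ^ 2 - ∑ l, t l * c l := by
      rw [Finset.sum_mul, ← Finset.sum_sub_distrib, ← Finset.sum_sub_distrib]
      apply Finset.sum_congr rfl
      intro l _
      ring
    rw [this]
    ring
  rw [h, ee_add, ee_add]
  ring

/-- **local constancy** along the space-time vectors `(e l, τ l)` -/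
theorem lc_dir (κ : Type) [Fintype κ] (M : ℕ) : ∃ C : ℝ, 0 ≤ C ∧ ∀ {n : ℕ} (e : κ → E n) (τ c : κ → ℝ) (G : E n → ℂ),
    Integrable G → (∀ η, G η ≠ 0 → ∀ l, |inner ℝ (e l) η - τ l * ‖η‖ ^ 2 - c l| ≤ 1) → ∀ (x : E n) (s : ℝ),
      ‖evo G x s 0‖ₑ ^ 2 ≤ ENNReal.ofReal C *
        ∫⁻ t : κ → ℝ, ‖evo G (x + ∑ l, t l • e l) (s + ∑ l, t l * τ l) 0‖ₑ ^ 2 * wt M t := by
  obtain ⟨C, hC, h⟩ := lc κ M
  refine ⟨C, hC, ?_⟩
  intro n e τ c G hG hs x s
  have key := h (E n) volume (dco e τ c) (fun η => G η * ee (inner ℝ x η - s * ‖η‖ ^ 2)) (dco_meas e τ c)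
    (mod_int hG x s) (fun η hη l => hs η (fun h0 => hη (by simp [h0])) l)
  have e0 := evo_UU G x s e τ c 0
  simp only [Pi.zero_apply, zero_smul, Finset.sum_const_zero, add_zero, zero_mul, ee_zero, one_mul] at e0
  rw [e0]
  refine key.trans (le_of_eq ?_)
  congr 1
  apply lintegral_congr
  intro t
  rw [evo_UU G x s e τ c t, enorm_mul, enorm_ee, one_mul]

/-- **orthogonality up to overlaps** along the space-time vectors `(e l, τ l)`, any moderate weight -/
theorem ort_dir (κ : Type) [Fintype κ] (M : ℕ) : ∃ C : ℝ, 0 ≤ C ∧ ∀ (K : ℝ) (w : (κ → ℝ) → ℝ≥0∞), 0 < K →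
    Measurable w → Mod M K w → ∀ {n : ℕ} (e : κ → E n) (τ : κ → ℝ) (ι : Type) (I : Finset ι) (G : ι → E n → ℂ)
      (m : ℕ), (∀ k ∈ I, Integrable (G k)) →
      (∀ k ∈ I, ∀ J ⊆ I, (∀ j ∈ J, ∃ ξ η, G k ξ ≠ 0 ∧ G j η ≠ 0 ∧
        ∀ l, |inner ℝ (e l) (ξ - η) - τ l * (‖ξ‖ ^ 2 - ‖η‖ ^ 2)| ≤ 1) → J.card ≤ m) → ∀ (x : E n) (s : ℝ),
      ∫⁻ t : κ → ℝ, ‖∑ k ∈ I, evo (G k) (x + ∑ l, t l • e l) (s + ∑ l, t l * τ l) 0‖ₑ ^ 2 * w t ≤
        ENNReal.ofReal (C * K ^ 2 * m) *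
          ∑ k ∈ I, ∫⁻ t : κ → ℝ, ‖evo (G k) (x + ∑ l, t l • e l) (s + ∑ l, t l * τ l) 0‖ₑ ^ 2 * w t := by
  obtain ⟨C, hC, h⟩ := ordw κ M
  refine ⟨C, hC, ?_⟩
  intro K w hK hwm hw n e τ ι I G m hG hov x s
  have key := h K w hK hwm hw (E n) volume (dco e τ 0) ι I
    (fun k η => G k η * ee (inner ℝ x η - s * ‖η‖ ^ 2)) m (dco_meas e τ 0) (fun k hk => mod_int (hG k hk) x s) ?_
  · have e1 : ∀ k t, evo (G k) (x + ∑ l, t l • e l) (s + ∑ l, t l * τ l) 0 =
        UU volume (dco e τ 0) (fun η => G k η * ee (inner ℝ x η - s * ‖η‖ ^ 2)) t := by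
      intro k t
      rw [evo_UU (G k) x s e τ 0 t]
      simp [ee_zero]
    simp_rw [e1]
    exact key
  · intro k hk J hJ hJ2
    apply hov k hk J hJ
    intro j hj
    obtain ⟨ξ, η, h1, h2, h3⟩ := hJ2 j hj
    refine ⟨ξ, η, fun h0 => h1 (by simp [h0]), fun h0 => h2 (by simp [h0]), fun l => ?_⟩
    have := h3 l
    simp only [dco, Pi.zero_apply, sub_zero] at this
    rw [inner_sub_right]
    convert this using 2
    ring

/-- change of variables: a rotated, anisotropic box -/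
theorem lint_chg (O : E n ≃ₗᵢ[ℝ] E n) (ρ : Fin n → ℝ) (hρ : ∀ l, 0 < ρ l) (x0 : E n) {f : E n → ℝ≥0∞}
    (hf : Measurable f) :
    ∫⁻ x, f x = ENNReal.ofReal (∏ l, ρ l) *
      ∫⁻ t : Fin n → ℝ, f (x0 + ∑ l, t l • (ρ l • O.symm (EuclideanSpace.single l 1))) := by
  have h1 : ∫⁻ x, f x = ∫⁻ x, f (x0 + O.symm x) := by
    rw [← lintegral_add_left_eq_self f x0]
    exact ((O.symm.measurePreserving).lintegral_comp (f := fun x => f (x0 + x)) (by fun_prop)).symm
  have h2 : ∫⁻ x : E n, f (x0 + O.symm x) = ∫⁻ t : Fin n → ℝ, f (x0 + O.symm (WithLp.toLp 2 t)) :=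
    ((PiLp.volume_preserving_toLp (Fin n)).lintegral_comp (f := fun x => f (x0 + O.symm x)) (by fun_prop)).symm
  set g : (Fin n → ℝ) → ℝ≥0∞ := fun t => f (x0 + O.symm (WithLp.toLp 2 t)) with hg
  have hgm : Measurable g := by
    rw [hg]
    fun_prop
  set A : (Fin n → ℝ) →ₗ[ℝ] (Fin n → ℝ) := Matrix.toLin' (Matrix.diagonal ρ) with hA
  have hdet : LinearMap.det A = ∏ l, ρ l := by
    rw [hA, LinearMap.det_toLin', Matrix.det_diagonal]
  have hpos : 0 < ∏ l, ρ l := Finset.prod_pos fun l _ => hρ l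
  have hmap := Real.map_linearMap_volume_pi_eq_smul_volume_pi (f := A) (by rw [hdet]; exact hpos.ne')
  have h3 : ∫⁻ t, g (A t) = ENNReal.ofReal (|(∏ l, ρ l)⁻¹|) * ∫⁻ t, g t := by
    rw [← lintegral_map hgm A.continuous_of_finiteDimensional.measurable, hmap, lintegral_smul_measure, hdet,
      smul_eq_mul]
  have h4 : ∀ t : Fin n → ℝ, g (A t) = f (x0 + ∑ l, t l • (ρ l • O.symm (EuclideanSpace.single l 1))) := by
    intro t
    rw [hg]
    simp only
    congr 2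
    have : (WithLp.toLp 2 (A t) : E n) = ∑ l, t l • (ρ l • (EuclideanSpace.single l (1:ℝ) : E n)) := by
      ext i
      simp [hA, Matrix.mulVec_diagonal, Finset.sum_apply, Pi.single_apply, mul_comm]
    rw [this, map_sum]
    apply Finset.sum_congr rfl
    intro l _
    rw [map_smul, map_smul]
  rw [h1, h2]
  simp_rw [← h4]
  rw [h3, ← mul_assoc, ← ENNReal.ofReal_mul hpos.le, abs_of_pos (inv_pos.mpr hpos), mul_inv_cancel₀ hpos.ne']
  simp

end Vale.Agent.P076T
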