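import Vale.Agent.P076T.Mean

/-! # P076T : orthogonality for weighted means, top and plate bounds -/

set_option linter.all false

open MeasureTheory Complex Set
open scoped FourierTransform ENNReal

namespace Vale.Agent.P076T

open Vale.Agent.P076
open Vale.Agent.P076T.LO
open Vale.Agent.P076.H791 (sft norm_sft evo_sft)

variable {n : ℕ}

theorem inner_symm_single (O : E n ≃ₗᵢ[ℝ] E n) (l : Fin n) (v : E n) :
    inner ℝ (O.symm (EuclideanSpace.single l (1:ℝ))) v = O v l := by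
  rw [← O.inner_map_map, O.apply_symm_apply, EuclideanSpace.inner_single_left]
  simp

theorem O_sum (O : E n ≃ₗᵢ[ℝ] E n) (ρ t : Fin n → ℝ) (i : Fin n) :
    O (∑ l, t l • (ρ l • O.symm (EuclideanSpace.single l (1:ℝ)))) i = t i * ρ i := by
  rw [map_sum]
  simp [Finset.sum_apply, Pi.single_apply]

/-- **orthogonality on a rotated anisotropic box**, any weight that is moderate for the box -/
theorem ort_box (n M : ℕ) : ∃ C : ℝ, 0 ≤ C ∧ ∀ (K : ℝ) (W : E n → ℝ≥0∞) (O : E n ≃ₗᵢ[ℝ] E n) (ρ : Fin n → ℝ),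
    0 < K → Measurable W → (∀ l, 0 < ρ l) →
    (∀ a b, W a ≤ ENNReal.ofReal (K * (1 + ∑ l, |O (b - a) l| / ρ l) ^ M) * W b) →
    ∀ (ι : Type) (I : Finset ι) (G : ι → E n → ℂ) (m : ℕ), (∀ k ∈ I, Integrable (G k)) →
      (∀ k ∈ I, ∀ J ⊆ I, (∀ j ∈ J, ∃ ξ η, G k ξ ≠ 0 ∧ G j η ≠ 0 ∧ ∀ l, |O (ξ - η) l| ≤ 1 / ρ l) → J.card ≤ m) →
      ∀ s : ℝ, ∫⁻ x, ‖∑ k ∈ I, evo (G k) x s 0‖ₑ ^ 2 * W x ≤
        ENNReal.ofReal (C * K ^ 2 * m) * ∑ k ∈ I, ∫⁻ x, ‖evo (G k) x s 0‖ₑ ^ 2 * W x := by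
  obtain ⟨C, hC, h⟩ := ort_dir (Fin n) M
  refine ⟨C, hC, ?_⟩
  intro K W O ρ hK hW hρ hmod ι I G m hG hov s
  set e : Fin n → E n := fun l => ρ l • O.symm (EuclideanSpace.single l (1:ℝ)) with he
  have hT : Continuous (fun t : Fin n → ℝ => (0 : E n) + ∑ l, t l • e l) := by fun_prop
  have key := h K (fun t => W (0 + ∑ l, t l • e l)) hK (hW.comp hT.measurable) ?_ e 0 ι I G m hG ?_ 0 s
  · simp only [Pi.zero_apply, mul_zero, Finset.sum_const_zero, add_zero] at key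
    have hSm : Measurable (fun x : E n => ‖∑ k ∈ I, evo (G k) x s 0‖ₑ ^ 2 * W x) :=
      ((continuous_finsetSum I fun k hk => evo_cont_x (hG k hk) s).measurable.enorm.pow_const 2).mul hW
    rw [lint_chg O ρ hρ 0 hSm]
    have e2 : ∀ k ∈ I, ∫⁻ x, ‖evo (G k) x s 0‖ₑ ^ 2 * W x = ENNReal.ofReal (∏ l, ρ l) *
        ∫⁻ t : Fin n → ℝ, ‖evo (G k) (0 + ∑ l, t l • e l) s 0‖ₑ ^ 2 * W (0 + ∑ l, t l • e l) :=
      fun k hk => lint_chg O ρ hρ 0 ((evo_meas (hG k hk) s).mul hW)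
    rw [Finset.sum_congr rfl e2, ← Finset.mul_sum, mul_left_comm]
    exact mul_le_mul' le_rfl key
  · intro a t
    refine (hmod _ (0 + ∑ l, a l • e l)).trans (le_of_eq ?_)
    congr 5
    unfold l1
    apply Finset.sum_congr rfl
    intro l _
    have : (0 + ∑ l, a l • e l) - (0 + ∑ l, t l • e l) = ∑ l, (a - t) l • e l := by
      rw [zero_add, zero_add, ← Finset.sum_sub_distrib]
      apply Finset.sum_congr rfl
      intro l _
      rw [Pi.sub_apply, sub_smul]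
    rw [this, he, O_sum, abs_mul, abs_of_pos (hρ l), mul_div_assoc, div_self (hρ l).ne', mul_one]
  · intro k hk J hJ hJ2
    apply hov k hk J hJ
    intro j hj
    obtain ⟨ξ, η, h1, h2, h3⟩ := hJ2 j hj
    refine ⟨ξ, η, h1, h2, fun l => ?_⟩
    have := h3 l
    simp only [he, Pi.zero_apply, zero_mul, sub_zero, real_inner_smul_left, inner_symm_single] at this
    rw [abs_mul, abs_of_pos (hρ l)] at this
    rw [le_div_iff₀ (hρ l), mul_comm]
    exact this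

/-- **orthogonality on a ball** -/
theorem mean_ort (n : ℕ) (M : ℝ) (hM : (n : ℝ) < M) : ∃ C : ℝ, 0 ≤ C ∧
    ∀ (ρ : ℝ) (ι : Type) (I : Finset ι) (G : ι → E n → ℂ) (m : ℕ), 0 < ρ → (∀ k ∈ I, Integrable (G k)) →
      (∀ k ∈ I, ∀ J ⊆ I, (∀ j ∈ J, ∃ ξ η, G k ξ ≠ 0 ∧ G j η ≠ 0 ∧ ∀ l, |ξ l - η l| ≤ 1 / ρ) → J.card ≤ m) →
      ∀ (x0 : E n) (s : ℝ), mean ρ M x0 s (fun η => ∑ k ∈ I, G k η) ≤ C * m * ∑ k ∈ I, mean ρ M x0 s (G k) := by
  have hM0 : 0 ≤ M := (Nat.cast_nonneg n).trans hM.le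
  obtain ⟨N, hN⟩ := exists_nat_ge M
  obtain ⟨C, hC, h⟩ := ort_box n N
  refine ⟨C, hC, fun ρ ι I G m hρ hG hov x0 s => ?_⟩
  have w1 := wE_meas (n := n) M ρ
  have key := h 1 (fun x => ENNReal.ofReal (wE M ρ (x - x0))) (LinearIsometryEquiv.refl ℝ (E n)) (fun _ => ρ) one_pos
    (by fun_prop) (fun _ => hρ) ?_ ι I G m hG ?_ s
  · have hs : 0 ≤ ∑ k ∈ I, mean ρ M x0 s (G k) := Finset.sum_nonneg fun k _ => mean_nonneg hρ _ _ _ _
    rw [← ENNReal.ofReal_le_ofReal_iff (by positivity), ENNReal.ofReal_mul (by positivity),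
      ENNReal.ofReal_sum_of_nonneg fun k _ => mean_nonneg hρ _ _ _ _,
      mean_eq hM hρ x0 s (integrable_finsetSum _ hG), Finset.sum_congr rfl fun k hk => mean_eq hM hρ x0 s (hG k hk)]
    unfold mnE
    simp_rw [evo_sum I hG]
    rw [← Finset.mul_sum, mul_left_comm]
    simp only [one_pow, mul_one] at key
    exact mul_le_mul' le_rfl key
  · intro a b
    rw [← ENNReal.ofReal_mul (by positivity), one_mul]
    refine ENNReal.ofReal_le_ofReal ((wE_peetre hM0 hρ _ (b - x0)).trans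
      (mul_le_mul_of_nonneg_right ?_ (wE_pos hρ _).le))
    have h1 : ‖a - x0 - (b - x0)‖ ≤ ∑ l, |(b - a) l| := by
      rw [show a - x0 - (b - x0) = -(b - a) by abel, norm_neg]
      exact norm_le_sum _
    have h2 : 1 + ‖a - x0 - (b - x0)‖ / ρ ≤ 1 + ∑ l, |(b - a) l| / ρ := by
      rw [← Finset.sum_div]; gcongr
    have h3 : (1:ℝ) ≤ 1 + ‖a - x0 - (b - x0)‖ / ρ := le_add_of_nonneg_right (by positivity)
    calc (1 + ‖a - x0 - (b - x0)‖ / ρ) ^ M ≤ (1 + ‖a - x0 - (b - x0)‖ / ρ) ^ (N:ℝ) :=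
          Real.rpow_le_rpow_of_exponent_le h3 hN
      _ = (1 + ‖a - x0 - (b - x0)‖ / ρ) ^ N := Real.rpow_natCast _ _
      _ ≤ _ := pow_le_pow_left₀ (by linarith) h2 N
  · intro k hk J hJ hJ2
    exact hov k hk J hJ hJ2

/-- overlap of lattice caps -/
theorem overlap_lat {A ρ : ℝ} (hA : 0 ≤ A) (hρ : 0 < ρ) {ι : Type} (I : Finset ι) (G : ι → E n → ℂ)
    (c : ι → Fin n → ℤ) (hc : Set.InjOn c I) (hs : ∀ k ∈ I, ∀ η, G k η ≠ 0 → ∀ i, |2 * η i - c k i / ρ| ≤ A / ρ) :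
    ∀ k ∈ I, ∀ J ⊆ I, (∀ j ∈ J, ∃ ξ η, G k ξ ≠ 0 ∧ G j η ≠ 0 ∧ ∀ l, |ξ l - η l| ≤ 1 / ρ) →
      J.card ≤ ⌈(4 * A + 6) ^ n⌉₊ := by
  intro k hk J hJ hJ2
  have h := card_ball (T := 2 * A + 2) one_pos (by positivity) J (fun j => WithLp.toLp 2 fun i => (c j i : ℝ))
    (fun i hi j hj hij => hc (hJ hi) (hJ hj) (funext fun l => by simpa using hij l))
    (WithLp.toLp 2 fun i => (c k i : ℝ)) ?_
  · have h2 : (J.card : ℝ) ≤ ⌈(4 * A + 6) ^ n⌉₊ := by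
      refine le_trans ?_ (Nat.le_ceil _)
      refine h.trans (le_of_eq ?_)
      congr 1
      ring
    exact_mod_cast h2
  · intro j hj l
    obtain ⟨ξ, η, h1, h2, h3⟩ := hJ2 j hj
    have a1 := abs_le.mp (hs k hk ξ h1 l)
    have a2 := abs_le.mp (hs j (hJ hj) η h2 l)
    have a3 := abs_le.mp (h3 l)
    have e : ((c j l : ℝ) - c k l) / ρ = c j l / ρ - c k l / ρ := by ring
    have b : |((c j l : ℝ) - c k l) / ρ| ≤ (2 * A + 2) / ρ := by
      have e2 : (2 * A + 2) / ρ = 2 * (A / ρ) + 2 * (1 / ρ) := by ring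
      rw [abs_le, e, e2]
      constructor <;> linarith
    rw [abs_div, abs_of_pos hρ, div_le_div_iff_of_pos_right hρ] at b
    simpa using b

/-- **orthogonality on a ball**, caps of a lattice -/
theorem mean_ort_lat (n : ℕ) (M A : ℝ) (hM : (n : ℝ) < M) (hA : 0 ≤ A) : ∃ C : ℝ, 0 ≤ C ∧
    ∀ (ρ : ℝ) (ι : Type) (I : Finset ι) (G : ι → E n → ℂ) (c : ι → Fin n → ℤ), 0 < ρ → (∀ k ∈ I, Integrable (G k)) →
      Set.InjOn c I → (∀ k ∈ I, ∀ η, G k η ≠ 0 → ∀ i, |2 * η i - c k i / ρ| ≤ A / ρ) →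
      ∀ (x0 : E n) (s : ℝ), mean ρ M x0 s (fun η => ∑ k ∈ I, G k η) ≤ C * ∑ k ∈ I, mean ρ M x0 s (G k) := by
  obtain ⟨C, hC, h⟩ := mean_ort n M hM
  exact ⟨C * ⌈(4 * A + 6) ^ n⌉₊, by positivity, fun ρ ι I G c hρ hG hc hs x0 s =>
    h ρ ι I G _ hρ hG (overlap_lat hA hρ I G c hc hs) x0 s⟩

/-- Plancherel at time `s` -/
theorem planch_evo {G : E n → ℂ} (h1 : Integrable G) (h2 : MemLp G 2) (s : ℝ) :
    Integrable (fun x => ‖evo G x s 0‖ ^ 2) ∧ ∫ x, ‖evo G x s 0‖ ^ 2 = ∫ η, ‖G η‖ ^ 2 := by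
  have hm : AEStronglyMeasurable (sft s G) volume := by
    unfold sft
    exact (by fun_prop : Continuous fun η : E n =>
      cexp (((-(2 * Real.pi * s * ‖η‖ ^ 2) : ℝ) : ℂ) * I)).aestronglyMeasurable.mul h1.aestronglyMeasurable
  have i1 : Integrable (sft s G) := h1.congr' hm (Filter.Eventually.of_forall fun η => (norm_sft s G η).symm)
  have i2 : MemLp (sft s G) 2 := h2.congr_norm hm (Filter.Eventually.of_forall fun η => (norm_sft s G η).symm)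
  have h := planch i1 i2
  simp_rw [fourierInv_eq_evo, evo_sft, zero_add, norm_sft] at h
  exact h

/-- a sum of means against a majorant of the sum of the weights -/
theorem mean_sum_le {r M : ℝ} (hM : (n : ℝ) < M) (hr : 0 < r) {ι : Type*} (Z : Finset ι) (x : ι → E n) (s : ℝ)
    {G : E n → ℂ} (hG : Integrable G) {W : E n → ℝ} (hW : ∀ y, ∑ i ∈ Z, wE M r (y - x i) ≤ W y)
    (hi : Integrable (fun y => ‖evo G y s 0‖ ^ 2 * W y)) :
    ∑ i ∈ Z, mean r M (x i) s G ≤ (r ^ n)⁻¹ * ∫ y, ‖evo G y s 0‖ ^ 2 * W y := by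
  unfold mean
  rw [← Finset.mul_sum, ← integral_finsetSum _ fun i _ => mean_int hM hr (x i) s hG]
  refine mul_le_mul_of_nonneg_left ?_ (inv_nonneg.mpr (pow_nonneg hr.le n))
  refine integral_mono (integrable_finsetSum _ fun i _ => mean_int hM hr (x i) s hG) hi fun y => ?_
  simp only
  rw [← Finset.mul_sum]
  exact mul_le_mul_of_nonneg_left (hW y) (by positivity)

/-- **top**: means at the points of a lattice -/
theorem mean_top {r M : ℝ} (hM : (2 * n : ℝ) < M) (hr : 0 < r) {ι : Type*} (Z : Finset ι) (x : ι → E n)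
    (hx : ∀ i ∈ Z, ∀ j ∈ Z, (∀ k, ⌊x i k / r⌋ = ⌊x j k / r⌋) → i = j) (s : ℝ) {G : E n → ℂ} (hG : Integrable G)
    (h2 : MemLp G 2) : ∑ i ∈ Z, mean r M (x i) s G ≤ cW n * (r ^ n)⁻¹ * ∫ η, ‖G η‖ ^ 2 := by
  have hn : (0:ℝ) ≤ n := Nat.cast_nonneg n
  obtain ⟨p1, p2⟩ := planch_evo hG h2 s
  refine (mean_sum_le (by linarith) hr Z x s hG (W := fun _ => cW n) (fun y => wE_lat hM.le hr Z x hx y)
    (p1.mul_const _)).trans (le_of_eq ?_)
  rw [integral_mul_const, p2]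
  ring

/-- **plates**: means at lattice points of a plate -/
theorem mean_plate {ρ M p B b : ℝ} {q : ℕ} (hM : (2 * n + q : ℝ) < M) (hρ : 1 ≤ ρ) (hp : 1 ≤ p) (hB : 0 ≤ B)
    {e : E n} (he : ‖e‖ ≤ 1) {ι : Type*} (Z : Finset ι) (x : ι → E n)
    (hx : ∀ i ∈ Z, ∀ j ∈ Z, (∀ k, ⌊x i k / ρ⌋ = ⌊x j k / ρ⌋) → i = j)
    (h1 : ∀ i ∈ Z, |inner ℝ e (x i) - b| ≤ B * (p * ρ)) (h2 : ∀ i ∈ Z, ‖x i‖ ≤ B * ρ ^ 2) (s : ℝ)
    {G : E n → ℂ} (hG : Integrable G) (hG2 : MemLp G 2) :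
    ∑ i ∈ Z, mean ρ M (x i) s G ≤ cW n * (2 + 2 * B) ^ q * (ρ ^ n)⁻¹ *
      ∫ y, ‖evo G y s 0‖ ^ 2 * ((1 + |inner ℝ e y - b| / (p * ρ) + ‖y‖ / ρ ^ 2) ^ q)⁻¹ := by
  have hn : (0:ℝ) ≤ n := Nat.cast_nonneg n
  have hq : (0:ℝ) ≤ q := Nat.cast_nonneg q
  have hρ0 : 0 < ρ := by linarith
  have hcW := cW_nonneg n
  obtain ⟨p1, p2⟩ := planch_evo hG hG2 s
  set w : E n → ℝ := fun y => ((1 + |inner ℝ e y - b| / (p * ρ) + ‖y‖ / ρ ^ 2) ^ q)⁻¹ with hw
  have hge : ∀ y : E n, 1 ≤ 1 + |inner ℝ e y - b| / (p * ρ) + ‖y‖ / ρ ^ 2 := by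
    intro y
    have : 0 ≤ |inner ℝ e y - b| / (p * ρ) := by positivity
    have : 0 ≤ ‖y‖ / ρ ^ 2 := by positivity
    linarith
  have hw0 : ∀ y, 0 ≤ w y := fun y => by rw [hw]; positivity
  have hw1 : ∀ y, w y ≤ 1 := fun y => inv_le_one_of_one_le₀ (one_le_pow₀ (hge y))
  have hwi : Integrable (fun y => ‖evo G y s 0‖ ^ 2 * w y) := by
    refine p1.mul_bdd (c := 1) ?_ (Filter.Eventually.of_forall fun y => ?_)
    · refine Measurable.aestronglyMeasurable ?_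
      rw [hw]
      fun_prop
    · rw [Real.norm_of_nonneg (hw0 y)]
      exact hw1 y
  have hW : ∀ y, ∑ i ∈ Z, wE M ρ (y - x i) ≤ cW n * (2 + 2 * B) ^ q * w y := by
    intro y
    have hpt : ∀ i ∈ Z, wE M ρ (y - x i) ≤ wE (2 * n) ρ (y - x i) * ((2 + 2 * B) ^ q * w y) := by
      intro i hi
      refine (wE_anti hM.le hρ0 _).trans ?_
      rw [wE_add hρ0]
      refine mul_le_mul_of_nonneg_left ?_ (wE_pos hρ0 _).le
      have a0 : 0 ≤ ‖y - x i‖ / ρ := by positivity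
      have a1 : |inner ℝ e y - b| / (p * ρ) ≤ ‖y - x i‖ / ρ + B := by
        rw [div_le_iff₀ (by positivity)]
        have b1 : |inner ℝ e (y - x i)| ≤ ‖y - x i‖ :=
          (abs_real_inner_le_norm _ _).trans (mul_le_of_le_one_left (norm_nonneg _) he)
        have b2 : |inner ℝ e y - b| ≤ |inner ℝ e (y - x i)| + |inner ℝ e (x i) - b| := by
          rw [inner_sub_right]
          refine le_trans (le_of_eq ?_) (abs_add_le _ _)
          congr 1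
          ring
        have b3 : ‖y - x i‖ ≤ ‖y - x i‖ / ρ * (p * ρ) := by
          rw [show ‖y - x i‖ / ρ * (p * ρ) = ‖y - x i‖ * p by field_simp]
          exact le_mul_of_one_le_right (norm_nonneg _) hp
        have := h1 i hi
        rw [add_mul]
        linarith
      have a2 : ‖y‖ / ρ ^ 2 ≤ ‖y - x i‖ / ρ + B := by
        rw [div_le_iff₀ (by positivity)]
        have b1 : ‖y‖ ≤ ‖y - x i‖ + ‖x i‖ := by
          calc ‖y‖ = ‖(y - x i) + x i‖ := by congr 1; abel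
            _ ≤ _ := norm_add_le _ _
        have b3 : ‖y - x i‖ ≤ ‖y - x i‖ / ρ * ρ ^ 2 := by
          rw [show ‖y - x i‖ / ρ * ρ ^ 2 = ‖y - x i‖ * ρ by field_simp]
          exact le_mul_of_one_le_right (norm_nonneg _) hρ
        have := h2 i hi
        rw [add_mul]
        linarith
      have a3 := rp_le (M := q) (a := 1 + ‖y - x i‖ / ρ) (b := 1 + |inner ℝ e y - b| / (p * ρ) + ‖y‖ / ρ ^ 2)
        (K := 2 + 2 * B) hq (by positivity) (by linarith [hge y]) (by positivity) (by nlinarith [mul_nonneg hB a0])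
      have a4 : (1 + |inner ℝ e y - b| / (p * ρ) + ‖y‖ / ρ ^ 2) ^ (-(q:ℝ)) = w y := by
        rw [Real.rpow_neg (by linarith [hge y]), Real.rpow_natCast]
      rw [Real.rpow_natCast, a4] at a3
      exact a3
    calc ∑ i ∈ Z, wE M ρ (y - x i) ≤ ∑ i ∈ Z, wE (2 * n) ρ (y - x i) * ((2 + 2 * B) ^ q * w y) :=
          Finset.sum_le_sum hpt
      _ ≤ cW n * ((2 + 2 * B) ^ q * w y) := by
          rw [← Finset.sum_mul]
          exact mul_le_mul_of_nonneg_right (wE_lat le_rfl hρ0 Z x hx y) (by have := hw0 y; positivity)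
      _ = _ := by ring
  have e1 : ∀ y, ‖evo G y s 0‖ ^ 2 * (cW n * (2 + 2 * B) ^ q * w y) =
      (cW n * (2 + 2 * B) ^ q) * (‖evo G y s 0‖ ^ 2 * w y) := fun y => by ring
  refine (mean_sum_le (by linarith) hρ0 Z x s hG hW ?_).trans (le_of_eq ?_)
  · simp_rw [e1]
    exact hwi.const_mul _
  · simp_rw [e1]
    rw [integral_const_mul]
    ring

end Vale.Agent.P076T
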