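import Vale.Agent.P076.H819.KerT

/-! # P076T : the kernel of the evolution for frequency boxes, any dimension (anisotropic) -/

set_option linter.all false

open MeasureTheory Complex Set
open scoped FourierTransform ENNReal

namespace Vale.Agent.P076T

open Vale.Agent.P076.H819 (Osc osc_continuous osc_integrable osc_inv osc_scale contDiff_aff hcs_aff
  bmp bmp_contDiff bmp_cs bmp_one osc_poly' Lam Lam_pos integrable_wt)

variable {n : ℕ}

/-- coordinates -/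
abbrev FF (n : ℕ) := Fin n → ℝ

/-- `u(x,t) = ∫ e^{i (x·ξ - t |ξ|²)} g(ξ) dξ` -/
noncomputable def Evo (g : FF n → ℂ) (x : FF n) (t : ℝ) : ℂ :=
  ∫ ξ : FF n, cexp (I * (∑ i, x i * ξ i) - I * t * (∑ i, ξ i ^ 2)) * g ξ

/-- the kernel -/
noncomputable def Kr (a : ℝ → ℂ) (L : FF n) (η : FF n) (τ : ℝ) (z : FF n) : ℂ :=
  ∏ i, ((2 * Real.pi)⁻¹ * Osc (fun ξ => a (L i * (ξ - η i))) (z i) τ)

theorem kr_integrable {a : ℝ → ℂ} (ha : ContDiff ℝ (⊤ : ℕ∞) a) (hc : HasCompactSupport a) {L : FF n}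
    (hL : ∀ i, 0 < L i) (η : FF n) (τ : ℝ) : Integrable (Kr a L η τ) := by
  unfold Kr
  exact Integrable.fintype_prod (f := fun i z => ((2 * Real.pi)⁻¹ * Osc (fun ξ => a (L i * (ξ - η i))) z τ))
    fun i => (osc_integrable (contDiff_aff ha (L i) (η i)) (hcs_aff hc (hL i).ne' _) τ).const_mul _

/-- Fourier transform of the kernel -/
theorem kr_fourier {a : ℝ → ℂ} (ha : ContDiff ℝ (⊤ : ℕ∞) a) (hc : HasCompactSupport a) {L : FF n}
    (hL : ∀ i, 0 < L i) (η : FF n) (τ : ℝ) (ξ : FF n) :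
    ∫ z : FF n, cexp (-(I * ∑ i, (z i : ℂ) * ξ i)) * Kr a L η τ z =
      ∏ i, (cexp (-(I * (τ * ξ i ^ 2))) * a (L i * (ξ i - η i))) := by
  have e : ∀ z : FF n, cexp (-(I * ∑ i, (z i : ℂ) * ξ i)) * Kr a L η τ z =
      ∏ i, (cexp (-(I * (z i * ξ i))) * ((2 * Real.pi)⁻¹ * Osc (fun ξ => a (L i * (ξ - η i))) (z i) τ)) := by
    intro z
    unfold Kr
    have h1 : cexp (-(I * ∑ i, (z i : ℂ) * ξ i)) = ∏ i, cexp (-(I * (z i * ξ i))) := by
      rw [← Complex.exp_sum, Finset.mul_sum, Finset.sum_neg_distrib]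
    rw [h1, ← Finset.prod_mul_distrib]
  simp_rw [e]
  rw [integral_fintype_prod_volume_eq_prod (fun i (z : ℝ) => cexp (-(I * (z * ξ i))) *
    ((2 * Real.pi)⁻¹ * Osc (fun ξ => a (L i * (ξ - η i))) z τ))]
  refine Finset.prod_congr rfl fun i _ => ?_
  have h := osc_inv (contDiff_aff ha (L i) (η i)) (hcs_aff hc (hL i).ne' (η i)) τ (ξ i)
  have e2 : (∫ z : ℝ, cexp (-(I * (z * ξ i))) * ((2 * Real.pi)⁻¹ * Osc (fun ξ => a (L i * (ξ - η i))) z τ)) =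
      (2 * Real.pi)⁻¹ * ∫ z : ℝ, cexp (-(I * (z * ξ i))) * Osc (fun ξ => a (L i * (ξ - η i))) z τ := by
    rw [← integral_const_mul]; congr 1; ext z; ring
  rw [e2, h]
  have : (2 * (Real.pi : ℂ)) ≠ 0 := by
    exact_mod_cast (by positivity : (2 * Real.pi) ≠ 0)
  push_cast
  field_simp

theorem evo_norm_exp (x ξ : FF n) (t : ℝ) : ‖cexp (I * (∑ i, x i * ξ i) - I * t * (∑ i, ξ i ^ 2))‖ = 1 := by
  have : I * ((∑ i, x i * ξ i : ℝ) : ℂ) - I * t * ((∑ i, ξ i ^ 2 : ℝ) : ℂ) =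
      (((∑ i, x i * ξ i) - t * (∑ i, ξ i ^ 2) : ℝ) : ℂ) * I := by push_cast; ring
  rw [this, Complex.norm_exp_ofReal_mul_I]

theorem evo_exp_continuous (t : ℝ) : Continuous fun p : FF n × FF n =>
    cexp (I * ((∑ i, p.1 i * p.2 i : ℝ) : ℂ) - I * t * ((∑ i, p.2 i ^ 2 : ℝ) : ℂ)) := by
  fun_prop

theorem Evo_continuous {g : FF n → ℂ} (hg : Integrable g) (t : ℝ) : Continuous fun x => Evo g x t := by
  unfold Evo
  refine continuous_of_dominated (bound := fun ζ => ‖g ζ‖) ?_ ?_ hg.norm ?_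
  · intro x
    exact (Continuous.aestronglyMeasurable (by fun_prop)).mul hg.aestronglyMeasurable
  · intro w; filter_upwards with ζ
    rw [norm_mul, evo_norm_exp, one_mul]
  · filter_upwards with ζ
    fun_prop

/-- **reproducing formula** -/
theorem evo_rep {a : ℝ → ℂ} (ha : ContDiff ℝ (⊤ : ℕ∞) a) (hc : HasCompactSupport a) {A : ℝ} {L : FF n}
    (hL : ∀ i, 0 < L i) (ha1 : ∀ ζ, |ζ| ≤ A → a ζ = 1) {η : FF n} {g : FF n → ℂ} (hg : Integrable g)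
    (hs : ∀ ξ, g ξ ≠ 0 → ∀ i, |ξ i - η i| ≤ A / L i) (x : FF n) (t t0 : ℝ) :
    Evo g x t = ∫ y : FF n, Evo g y t0 * Kr a L η (t - t0) (x - y) := by
  have hK := kr_integrable ha hc hL η (t - t0)
  have hKx : Integrable (fun y : FF n => Kr a L η (t - t0) (x - y)) := hK.comp_sub_left x
  have hF : Integrable (Function.uncurry fun (y ξ : FF n) =>
      cexp (I * (∑ i, y i * ξ i) - I * t0 * (∑ i, ξ i ^ 2)) * g ξ * Kr a L η (t - t0) (x - y))
      (volume.prod volume) := by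
    have h1 : Integrable (fun p : FF n × FF n => Kr a L η (t - t0) (x - p.1) * g p.2) (volume.prod volume) :=
      hKx.mul_prod hg
    refine h1.mono ?_ ?_
    · have h2 : AEStronglyMeasurable (fun p : FF n × FF n =>
          cexp (I * ((∑ i, p.1 i * p.2 i : ℝ) : ℂ) - I * t0 * ((∑ i, p.2 i ^ 2 : ℝ) : ℂ)))
        (volume.prod volume) := (evo_exp_continuous t0).aestronglyMeasurable
      refine (h2.mul h1.aestronglyMeasurable).congr ?_
      filter_upwards with p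
      simp only [Function.uncurry, Pi.mul_apply]
      push_cast
      ring
    · filter_upwards with p
      simp only [Function.uncurry]
      rw [norm_mul, norm_mul, evo_norm_exp, one_mul, norm_mul, mul_comm]
  have e1 : (∫ y : FF n, Evo g y t0 * Kr a L η (t - t0) (x - y)) =
      ∫ y : FF n, ∫ ξ : FF n, cexp (I * (∑ i, y i * ξ i) - I * t0 * (∑ i, ξ i ^ 2)) * g ξ *
        Kr a L η (t - t0) (x - y) := by
    congr 1; ext y
    unfold Evo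
    rw [integral_mul_const]
  rw [e1, integral_integral_swap hF]
  unfold Evo
  congr 1; ext ξ
  by_cases h0 : g ξ = 0
  · simp [h0]
  have e2 : (∫ y : FF n, cexp (I * (∑ i, y i * ξ i) - I * t0 * (∑ i, ξ i ^ 2)) * g ξ * Kr a L η (t - t0) (x - y)) =
      ∫ z : FF n, cexp (I * (∑ i, (x i - z i) * ξ i) - I * t0 * (∑ i, ξ i ^ 2)) * g ξ * Kr a L η (t - t0) z := by
    rw [← integral_sub_left_eq_self _ _ x]
    congr 1; ext z
    simp
  rw [e2]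
  have e3 : ∀ z : FF n, cexp (I * (∑ i, (x i - z i) * ξ i : ℝ) - I * t0 * (∑ i, ξ i ^ 2 : ℝ)) * g ξ *
      Kr a L η (t - t0) z = (cexp (I * (∑ i, x i * ξ i : ℝ) - I * t0 * (∑ i, ξ i ^ 2 : ℝ)) * g ξ) *
        (cexp (-(I * ∑ i, (z i : ℂ) * ξ i)) * Kr a L η (t - t0) z) := by
    intro z
    have : I * ((∑ i, (x i - z i) * ξ i : ℝ) : ℂ) - I * t0 * ((∑ i, ξ i ^ 2 : ℝ) : ℂ) =
        (I * ((∑ i, x i * ξ i : ℝ) : ℂ) - I * t0 * ((∑ i, ξ i ^ 2 : ℝ) : ℂ)) + -(I * ∑ i, (z i : ℂ) * ξ i) := by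
      push_cast
      simp_rw [sub_mul, Finset.sum_sub_distrib]; ring
    rw [this, Complex.exp_add]; ring
  simp_rw [e3]
  rw [integral_const_mul, kr_fourier ha hc hL]
  have e4 : (∏ i, (cexp (-(I * ((t - t0 : ℝ) * ξ i ^ 2))) * a (L i * (ξ i - η i)))) =
      cexp (-(I * (t - t0 : ℝ) * ∑ i, (ξ i : ℂ) ^ 2)) := by
    rw [Finset.prod_mul_distrib, ← Complex.exp_sum]
    have : ∏ i, a (L i * (ξ i - η i)) = 1 := by
      refine Finset.prod_eq_one fun i _ => ha1 _ ?_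
      have := hs ξ h0 i
      have hi := hL i
      rw [abs_mul, abs_of_pos hi]
      calc L i * |ξ i - η i| ≤ L i * (A / L i) := by gcongr
        _ = A := by field_simp
    rw [this, mul_one, Finset.sum_neg_distrib, Finset.mul_sum]
    congr 2
    refine Finset.sum_congr rfl fun i _ => ?_
    ring
  rw [e4]
  have : cexp (I * ((∑ i, x i * ξ i : ℝ) : ℂ) - I * t * ((∑ i, ξ i ^ 2 : ℝ) : ℂ)) =
      cexp (I * ((∑ i, x i * ξ i : ℝ) : ℂ) - I * t0 * ((∑ i, ξ i ^ 2 : ℝ) : ℂ)) *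
        cexp (-(I * (t - t0 : ℝ) * ∑ i, (ξ i : ℂ) ^ 2)) := by
    rw [← Complex.exp_add]; congr 1; push_cast; ring
  rw [this]; ring

/-- the weight of a box of sides `L i` -/
noncomputable def wq (M : ℕ) (L : FF n) (v : FF n) : ℝ := ((1 + ∑ i, |v i| / L i) ^ M)⁻¹

theorem sum_div_nonneg {L : FF n} (hL : ∀ i, 0 < L i) (v : FF n) : 0 ≤ ∑ i, |v i| / L i :=
  Finset.sum_nonneg fun i _ => div_nonneg (abs_nonneg _) (hL i).le

theorem wq_pos {M : ℕ} {L : FF n} (hL : ∀ i, 0 < L i) (v : FF n) : 0 < wq M L v := by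
  unfold wq
  have := sum_div_nonneg hL v
  positivity

theorem wq_le_one {M : ℕ} {L : FF n} (hL : ∀ i, 0 < L i) (v : FF n) : wq M L v ≤ 1 := by
  unfold wq
  have := sum_div_nonneg hL v
  exact inv_le_one_of_one_le₀ (one_le_pow₀ (by linarith))

theorem wq_measurable (M : ℕ) (L : FF n) : Measurable (wq M L) := by
  unfold wq
  fun_prop

theorem wq_mono (M : ℕ) {L L' : FF n} (hL : ∀ i, 0 < L i) (h : ∀ i, L i ≤ L' i) (v : FF n) :
    wq M L v ≤ wq M L' v := by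
  unfold wq
  have h0 := sum_div_nonneg (fun i => (hL i).trans_le (h i)) v
  apply inv_anti₀ (by positivity)
  refine pow_le_pow_left₀ (by linarith) ?_ M
  have : ∑ i, |v i| / L' i ≤ ∑ i, |v i| / L i :=
    Finset.sum_le_sum fun i _ => div_le_div_of_nonneg_left (abs_nonneg _) (hL i) (h i)
  linarith

theorem one_add_sum_le {ι : Type*} (s : Finset ι) (a : ι → ℝ) (h : ∀ i, 0 ≤ a i) :
    1 + ∑ i ∈ s, a i ≤ ∏ i ∈ s, (1 + a i) := by
  classical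
  induction s using Finset.induction_on with
  | empty => simp
  | insert j s hj ih =>
    rw [Finset.sum_insert hj, Finset.prod_insert hj]
    have h1 : 0 ≤ ∑ i ∈ s, a i := Finset.sum_nonneg fun i _ => h i
    have := h j
    nlinarith

/-- the majorant of the kernel -/
noncomputable def km (M : ℕ) (L : FF n) (v : FF n) : ℝ := ∏ i, ((L i)⁻¹ * ((1 + |v i| / L i) ^ (M + 2))⁻¹)

theorem km_measurable (M : ℕ) (L : FF n) : Measurable (km M L) := by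
  unfold km
  refine Finset.measurable_prod _ fun i _ => ?_
  fun_prop

theorem km_le_wq (M : ℕ) {L : FF n} (hL : ∀ i, 0 < L i) (v : FF n) :
    km M L v ≤ (∏ i, (L i)⁻¹) * wq M L v := by
  unfold km wq
  rw [Finset.prod_mul_distrib]
  refine mul_le_mul_of_nonneg_left ?_ (Finset.prod_nonneg fun i _ => (inv_pos.2 (hL i)).le)
  have h0 : ∀ i, 0 ≤ |v i| / L i := fun i => div_nonneg (abs_nonneg _) (hL i).le
  have h1 := sum_div_nonneg hL v
  rw [Finset.prod_inv_distrib, Finset.prod_pow]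
  apply inv_anti₀ (by positivity)
  have h2 := one_add_sum_le Finset.univ _ h0
  calc (1 + ∑ i, |v i| / L i) ^ M ≤ (∏ i, (1 + |v i| / L i)) ^ M := pow_le_pow_left₀ (by linarith) h2 M
    _ ≤ _ := pow_le_pow_right₀ (by linarith) (by omega)

theorem lint_prod {L : FF n} (hL : ∀ i, 0 < L i) (c : FF n) :
    ∫⁻ z : FF n, ENNReal.ofReal (∏ i, ((L i)⁻¹ * ((1 + |z i - c i| / L i) ^ 2)⁻¹)) =
      ENNReal.ofReal ((∫ w : ℝ, ((1 + |w|) ^ 2)⁻¹) ^ n) := by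
  have hI : ∀ i : Fin n, Integrable (fun z : ℝ => (L i)⁻¹ * ((1 + |z - c i| / L i) ^ 2)⁻¹) := by
    intro i
    have h1 : Integrable (fun z : ℝ => ((1 + |((L i)⁻¹ * z)|) ^ 2)⁻¹) :=
      integrable_wt.comp_mul_left' (inv_ne_zero (hL i).ne')
    have h2 := (h1.comp_sub_right (c i)).const_mul (L i)⁻¹
    refine h2.congr ?_
    filter_upwards with z
    rw [abs_mul, abs_of_pos (inv_pos.2 (hL i)), div_eq_inv_mul]
  have hII : Integrable (fun z : FF n => ∏ i, ((L i)⁻¹ * ((1 + |z i - c i| / L i) ^ 2)⁻¹)) :=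
    Integrable.fintype_prod (f := fun i z => (L i)⁻¹ * ((1 + |z - c i| / L i) ^ 2)⁻¹) hI
  rw [← ofReal_integral_eq_lintegral_ofReal hII (by
    filter_upwards with z
    exact Finset.prod_nonneg fun i _ => by have := hL i; positivity)]
  congr 1
  rw [integral_fintype_prod_volume_eq_prod (fun i (z : ℝ) => (L i)⁻¹ * ((1 + |z - c i| / L i) ^ 2)⁻¹)]
  have e : ∀ i : Fin n, (∫ z : ℝ, (L i)⁻¹ * ((1 + |z - c i| / L i) ^ 2)⁻¹) = ∫ w : ℝ, ((1 + |w|) ^ 2)⁻¹ := by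
    intro i
    have h1 := integral_sub_right_eq_self (μ := volume) (fun z : ℝ => ((1 + |(L i)⁻¹ * z|) ^ 2)⁻¹) (c i)
    have h2 := Measure.integral_comp_mul_left (fun w : ℝ => ((1 + |w|) ^ 2)⁻¹) (L i)⁻¹
    rw [inv_inv, abs_of_pos (hL i), smul_eq_mul] at h2
    rw [integral_const_mul]
    have h3 : (∫ z : ℝ, ((1 + |z - c i| / L i) ^ 2)⁻¹) = ∫ z : ℝ, ((1 + |(L i)⁻¹ * (z - c i)|) ^ 2)⁻¹ := by
      congr 1; ext z
      rw [abs_mul, abs_of_pos (inv_pos.2 (hL i)), div_eq_inv_mul]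
    rw [h3, h1, h2, ← mul_assoc, inv_mul_cancel₀ (hL i).ne', one_mul]
  simp_rw [e]
  simp

theorem lint_km (M : ℕ) {L : FF n} (hL : ∀ i, 0 < L i) (x c : FF n) :
    ∫⁻ y : FF n, ENNReal.ofReal (km M L (fun i => x i - y i - c i)) ≤
      ENNReal.ofReal ((∫ w : ℝ, ((1 + |w|) ^ 2)⁻¹) ^ n) := by
  rw [← lint_prod hL (fun i => x i - c i)]
  refine lintegral_mono fun y => ENNReal.ofReal_le_ofReal ?_
  unfold km
  refine Finset.prod_le_prod (fun i _ => by have := hL i; positivity) fun i _ => ?_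
  have e5 : |x i - y i - c i| = |y i - (x i - c i)| := by
    rw [← abs_neg]; congr 1; ring
  rw [e5]
  have hi := hL i
  have h0 : 0 ≤ |y i - (x i - c i)| / L i := by positivity
  refine mul_le_mul_of_nonneg_left ?_ (by positivity)
  apply inv_anti₀ (by positivity)
  exact pow_le_pow_right₀ (by linarith) (by omega)

/-- Cauchy-Schwarz with a kernel -/
theorem cs_kernel {α : Type*} [MeasurableSpace α] {μ : Measure α} {f k : α → ℝ≥0∞} (hf : Measurable f)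
    (hk : Measurable k) : (∫⁻ y, f y * k y ∂μ) ^ 2 ≤ (∫⁻ y, f y ^ 2 * k y ∂μ) * ∫⁻ y, k y ∂μ := by
  have hm : Measurable (fun y => k y ^ (1/2 : ℝ)) := by fun_prop
  have h := ENNReal.lintegral_mul_le_Lp_mul_Lq (μ := μ) (p := 2) (q := 2) (by constructor <;> norm_num)
    (f := fun y => f y * k y ^ (1/2 : ℝ)) (g := fun y => k y ^ (1/2 : ℝ)) (hf.mul hm).aemeasurable hm.aemeasurable
  have e1 : ∀ y, ((fun y => f y * k y ^ (1/2 : ℝ)) * fun y => k y ^ (1/2 : ℝ)) y = f y * k y := by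
    intro y
    simp only [Pi.mul_apply]
    rw [mul_assoc, ← ENNReal.rpow_add_of_nonneg _ _ (by norm_num) (by norm_num)]
    norm_num
  simp_rw [e1] at h
  have e2 : ∀ y, (f y * k y ^ (1/2 : ℝ)) ^ (2:ℝ) = f y ^ 2 * k y := by
    intro y
    rw [ENNReal.mul_rpow_of_nonneg _ _ (by norm_num), ← ENNReal.rpow_mul]
    norm_num
  have e3 : ∀ y, (k y ^ (1/2 : ℝ)) ^ (2:ℝ) = k y := by
    intro y
    rw [← ENNReal.rpow_mul]
    norm_num
  simp_rw [e2, e3] at h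
  calc (∫⁻ y, f y * k y ∂μ) ^ 2 ≤ ((∫⁻ y, f y ^ 2 * k y ∂μ) ^ (1 / 2 : ℝ) * (∫⁻ y, k y ∂μ) ^ (1 / 2 : ℝ)) ^ 2 := by
        gcongr
    _ = _ := by
      rw [mul_pow, ← ENNReal.rpow_natCast, ← ENNReal.rpow_mul, ← ENNReal.rpow_natCast, ← ENNReal.rpow_mul]
      norm_num

theorem kr_all (n M : ℕ) (A : ℝ) : ∃ C : ℝ, 0 ≤ C ∧ ∀ (L η : FF n) (τ : ℝ) (z : FF n), (∀ i, 0 < L i) →
    ‖Kr (bmp A) L η τ z‖ ≤ C * (∏ i, (1 + |τ| / L i ^ 2)) *
      ∏ i, ((Lam (L i) τ)⁻¹ * ((1 + |z i - 2 * τ * η i| / Lam (L i) τ) ^ M)⁻¹) := by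
  obtain ⟨C, hC, h⟩ := osc_poly' M (bmp_contDiff A) (bmp_cs A)
  refine ⟨((2 * Real.pi)⁻¹ * C) ^ n, by positivity, fun L η τ z hL => ?_⟩
  have h1 : ∀ i : Fin n, ‖((((2 * Real.pi)⁻¹ : ℝ) : ℂ) * Osc (fun ξ => bmp A (L i * (ξ - η i))) (z i) τ)‖ ≤
      ((2 * Real.pi)⁻¹ * C * (1 + |τ| / L i ^ 2)) *
        ((Lam (L i) τ)⁻¹ * ((1 + |z i - 2 * τ * η i| / Lam (L i) τ) ^ M)⁻¹) := by
    intro i
    have hi := hL i
    have hΛ := Lam_pos hi τ
    rw [norm_mul, osc_scale _ hi, Complex.norm_real, Real.norm_eq_abs, abs_of_pos (by positivity)]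
    have := h ((z i - 2 * τ * η i) / L i) (τ / L i ^ 2)
    have e1 : |(z i - 2 * τ * η i) / L i| / (1 + |τ / L i ^ 2|) = |z i - 2 * τ * η i| / Lam (L i) τ := by
      rw [abs_div, abs_of_pos hi, abs_div, abs_of_pos (by positivity : (0:ℝ) < L i ^ 2), Lam, div_div]
    rw [e1] at this
    have e2 : (L i)⁻¹ = (1 + |τ| / L i ^ 2) * (Lam (L i) τ)⁻¹ := by
      unfold Lam; field_simp
    calc (2 * Real.pi)⁻¹ * ((L i)⁻¹ * ‖Osc (bmp A) ((z i - 2 * τ * η i) / L i) (τ / L i ^ 2)‖)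
        ≤ (2 * Real.pi)⁻¹ * ((L i)⁻¹ * (C * ((1 + |z i - 2 * τ * η i| / Lam (L i) τ) ^ M)⁻¹)) := by gcongr
      _ = _ := by rw [e2]; ring
  unfold Kr
  rw [norm_prod]
  calc ∏ i, ‖((((2 * Real.pi)⁻¹ : ℝ) : ℂ) * Osc (fun ξ => bmp A (L i * (ξ - η i))) (z i) τ)‖
      ≤ ∏ i, (((2 * Real.pi)⁻¹ * C * (1 + |τ| / L i ^ 2)) *
          ((Lam (L i) τ)⁻¹ * ((1 + |z i - 2 * τ * η i| / Lam (L i) τ) ^ M)⁻¹)) :=
        Finset.prod_le_prod (fun _ _ => norm_nonneg _) fun i _ => h1 i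
    _ = _ := by
      rw [Finset.prod_mul_distrib, Finset.prod_mul_distrib, Finset.prod_const, Finset.card_univ,
        Fintype.card_fin]

/-- all-times kernel bound, `Evo` normalisation -/
theorem kernel_bound (n M : ℕ) (A : ℝ) : ∃ C : ℝ, 0 ≤ C ∧ ∀ (L η : FF n) (g : FF n → ℂ), (∀ i, 0 < L i) →
    Integrable g → (∀ ξ, g ξ ≠ 0 → ∀ i, |ξ i - η i| ≤ A / L i) → ∀ (x : FF n) (t t0 : ℝ),
      ‖Evo g x t‖ₑ ^ 2 ≤ ENNReal.ofReal (C * ∏ i, ((1 + |t - t0| / L i ^ 2) / L i)) *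
        ∫⁻ y, ‖Evo g y t0‖ₑ ^ 2 * ENNReal.ofReal
          (wq M (fun i => Lam (L i) (t - t0)) (fun i => x i - y i - 2 * (t - t0) * η i)) := by
  obtain ⟨C1, hC1, h1⟩ := kr_all n (M + 2) A
  have hw0 : 0 ≤ ∫ w : ℝ, ((1 + |w|) ^ 2)⁻¹ := integral_nonneg fun w => by positivity
  refine ⟨C1 ^ 2 * (∫ w : ℝ, ((1 + |w|) ^ 2)⁻¹) ^ n, by positivity, fun L η g hL hg hs x t t0 => ?_⟩
  have hrep := evo_rep (bmp_contDiff A) (bmp_cs A) hL (fun ζ h => bmp_one h) hg hs x t t0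
  set Λ : FF n := fun i => Lam (L i) (t - t0) with hΛ
  have hΛ0 : ∀ i, 0 < Λ i := fun i => Lam_pos (hL i) _
  set P : ℝ := ∏ i, (1 + |t - t0| / L i ^ 2) with hP
  have hP0 : 0 < P := Finset.prod_pos fun i _ => by positivity
  have hQ0 : 0 < ∏ i, (Λ i)⁻¹ := Finset.prod_pos fun i _ => inv_pos.2 (hΛ0 i)
  have hPL : P ^ 2 * ∏ i, (Λ i)⁻¹ = ∏ i, ((1 + |t - t0| / L i ^ 2) / L i) := by
    rw [hP, ← Finset.prod_pow, ← Finset.prod_mul_distrib]
    refine Finset.prod_congr rfl fun i _ => ?_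
    have hi := hL i
    simp only [hΛ, Lam]
    field_simp
  set k : FF n → ℝ≥0∞ := fun y => ENNReal.ofReal (km M Λ (fun i => x i - y i - 2 * (t - t0) * η i)) with hk
  have hkm : Measurable k := ((km_measurable M Λ).comp (by fun_prop)).ennreal_ofReal
  have hum : Measurable (fun y => ‖Evo g y t0‖ₑ) := (Evo_continuous hg t0).enorm.measurable
  have hA : ‖Evo g x t‖ₑ ≤ ENNReal.ofReal (C1 * P) * ∫⁻ y, ‖Evo g y t0‖ₑ * k y := by
    rw [hrep, ← lintegral_const_mul' _ _ ENNReal.ofReal_ne_top]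
    refine (enorm_integral_le_lintegral_enorm _).trans (lintegral_mono fun y => ?_)
    rw [enorm_mul, mul_comm (ENNReal.ofReal (C1 * P)), mul_assoc]
    refine mul_le_mul_right ?_ _
    rw [hk, ← ofReal_norm, mul_comm, ← ENNReal.ofReal_mul (by positivity)]
    exact ENNReal.ofReal_le_ofReal (h1 L η (t - t0) (x - y) hL)
  have hk3 : ∫⁻ y, k y ≤ ENNReal.ofReal ((∫ w : ℝ, ((1 + |w|) ^ 2)⁻¹) ^ n) := lint_km M hΛ0 x _
  have hk2 : ∫⁻ y, ‖Evo g y t0‖ₑ ^ 2 * k y ≤ ENNReal.ofReal (∏ i, (Λ i)⁻¹) *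
      ∫⁻ y, ‖Evo g y t0‖ₑ ^ 2 * ENNReal.ofReal (wq M Λ (fun i => x i - y i - 2 * (t - t0) * η i)) := by
    rw [← lintegral_const_mul' _ _ ENNReal.ofReal_ne_top]
    refine lintegral_mono fun y => ?_
    rw [mul_left_comm, ← ENNReal.ofReal_mul hQ0.le]
    exact mul_le_mul_right (ENNReal.ofReal_le_ofReal (km_le_wq M hΛ0 _)) _
  calc ‖Evo g x t‖ₑ ^ 2 ≤ (ENNReal.ofReal (C1 * P) * ∫⁻ y, ‖Evo g y t0‖ₑ * k y) ^ 2 := pow_le_pow_left' hA 2
    _ = ENNReal.ofReal (C1 * P) ^ 2 * (∫⁻ y, ‖Evo g y t0‖ₑ * k y) ^ 2 := mul_pow _ _ _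
    _ ≤ ENNReal.ofReal (C1 * P) ^ 2 * ((∫⁻ y, ‖Evo g y t0‖ₑ ^ 2 * k y) * ∫⁻ y, k y) :=
        mul_le_mul_right (cs_kernel hum hkm) _
    _ ≤ ENNReal.ofReal (C1 * P) ^ 2 * ((ENNReal.ofReal (∏ i, (Λ i)⁻¹) *
      ∫⁻ y, ‖Evo g y t0‖ₑ ^ 2 * ENNReal.ofReal (wq M Λ (fun i => x i - y i - 2 * (t - t0) * η i))) *
        ENNReal.ofReal ((∫ w : ℝ, ((1 + |w|) ^ 2)⁻¹) ^ n)) := mul_le_mul_right (mul_le_mul' hk2 hk3) _
    _ = (ENNReal.ofReal (C1 * P) ^ 2 * ENNReal.ofReal ((∫ w : ℝ, ((1 + |w|) ^ 2)⁻¹) ^ n) *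
        ENNReal.ofReal (∏ i, (Λ i)⁻¹)) *
      ∫⁻ y, ‖Evo g y t0‖ₑ ^ 2 * ENNReal.ofReal (wq M Λ (fun i => x i - y i - 2 * (t - t0) * η i)) := by ring
    _ = _ := by
      rw [← ENNReal.ofReal_pow (by positivity), ← ENNReal.ofReal_mul (by positivity),
        ← ENNReal.ofReal_mul (by positivity), ← hPL]
      congr 2
      ring

end Vale.Agent.P076T
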