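import Vale.Agent.P122.H84.Orth

/-! # P076T : local constancy in normalised coordinates, any finite number of coordinates

`U(t) = ∫ g(ξ) e(∑ tᵢ pᵢ(ξ)) dμ(ξ)`, `t ∈ ℝ^κ`, for an arbitrary measure space (port of P122/H84/Abs). -/

open MeasureTheory Complex Set
open scoped ENNReal NNReal ContDiff FourierTransform SchwartzMap

set_option linter.all false

namespace Vale.Agent.P076T.LO

open Vale.Agent.P122.H84 (ee norm_ee ee_add ee_zero conj_ee continuous_ee measurable_ee char_eq decay exists_ker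
  exists_FF cs_lint int_pow2 F_int)

variable {κ : Type} [Fintype κ]

variable {Ξ : Type*} [MeasurableSpace Ξ]

/-- the superposition of exponentials in normalised coordinates -/
noncomputable def UU (μ : Measure Ξ) (p : Ξ → (κ → ℝ)) (g : Ξ → ℂ) (t : (κ → ℝ)) : ℂ := ∫ ξ, g ξ * ee (∑ i, t i * p ξ i) ∂μ

lemma UU_bd (μ : Measure Ξ) (p : Ξ → (κ → ℝ)) (g : Ξ → ℂ) (t : (κ → ℝ)) : ‖UU μ p g t‖ ≤ ∫ ξ, ‖g ξ‖ ∂μ := by
  unfold UU
  refine (norm_integral_le_integral_norm _).trans (le_of_eq ?_)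
  congr 1
  ext ξ
  rw [norm_mul, norm_ee, mul_one]

lemma UU_int {μ : Measure Ξ} {p : Ξ → (κ → ℝ)} {g : Ξ → ℂ} (hp : Measurable p) (hg : Integrable g μ) (t : (κ → ℝ)) :
    Integrable (fun ξ => g ξ * ee (∑ i, t i * p ξ i)) μ := by
  refine hg.mul_bdd (c := 1) ?_ ?_
  · apply Measurable.aestronglyMeasurable
    fun_prop
  · exact Filter.Eventually.of_forall fun y => by rw [norm_ee]

lemma UU_cont {μ : Measure Ξ} {p : Ξ → (κ → ℝ)} {g : Ξ → ℂ} (hp : Measurable p) (hg : Integrable g μ) :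
    Continuous (UU μ p g) := by
  unfold UU
  refine continuous_of_dominated (bound := fun ξ => ‖g ξ‖) ?_ ?_ hg.norm ?_
  · intro t
    exact (UU_int hp hg t).aestronglyMeasurable
  · intro t
    exact Filter.Eventually.of_forall fun y => by rw [norm_mul, norm_ee, mul_one]
  · refine Filter.Eventually.of_forall fun ξ => ?_
    fun_prop

/-- `l¹` norm -/
noncomputable def l1 (t : (κ → ℝ)) : ℝ := ∑ i, |t i|

lemma l1_nonneg (t : (κ → ℝ)) : 0 ≤ l1 t := Finset.sum_nonneg fun _ _ => abs_nonneg _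

@[fun_prop]
lemma l1_cont : Continuous (l1 : (κ → ℝ) → ℝ) := by unfold l1; fun_prop

/-- polynomial weight -/
noncomputable def wt (M : ℕ) (t : (κ → ℝ)) : ℝ≥0∞ := ENNReal.ofReal (((1 + l1 t) ^ M)⁻¹)

lemma wt_meas (M : ℕ) : Measurable (wt M : (κ → ℝ) → ℝ≥0∞) := by
  unfold wt
  have := (l1_cont (κ := κ)).measurable
  fun_prop

lemma one_add_sum_le' {ι : Type*} (s : Finset ι) (a : ι → ℝ) (h : ∀ i, 0 ≤ a i) :
    1 + ∑ i ∈ s, a i ≤ ∏ i ∈ s, (1 + a i) := by
  classical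
  induction s using Finset.induction_on with
  | empty => simp
  | insert j s hj ih =>
    rw [Finset.sum_insert hj, Finset.prod_insert hj]
    have h1 : 0 ≤ ∑ i ∈ s, a i := Finset.sum_nonneg fun i _ => h i
    have := h j
    nlinarith [mul_nonneg this h1]

lemma one_add_l1_le (t : (κ → ℝ)) : 1 + l1 t ≤ ∏ i, (1 + |t i|) :=
  one_add_sum_le' Finset.univ (fun i => |t i|) fun _ => abs_nonneg _

lemma ee_finsum {ι : Type*} (s : Finset ι) (a : ι → ℝ) : ee (∑ i ∈ s, a i) = ∏ i ∈ s, ee (a i) := by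
  classical
  induction s using Finset.induction_on with
  | empty => simp [ee_zero]
  | insert j s hj ih => rw [Finset.sum_insert hj, Finset.prod_insert hj, ee_add, ih]

lemma ee_sum (η : (κ → ℝ)) (t : (κ → ℝ)) : ee (∑ i, t i * η i) = ∏ i, ee (t i * η i) :=
  ee_finsum Finset.univ fun i => t i * η i

/-- [LC] -/
theorem lc (κ : Type) [Fintype κ] (M : ℕ) : ∃ C : ℝ, 0 ≤ C ∧ ∀ (Ξ : Type) [MeasurableSpace Ξ] (μ : Measure Ξ) [SFinite μ] (p : Ξ → (κ → ℝ)) (g : Ξ → ℂ),
    Measurable p → Integrable g μ → (∀ ξ, g ξ ≠ 0 → ∀ i, |p ξ i| ≤ 1) →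
    ‖UU μ p g 0‖ₑ ^ 2 ≤ ENNReal.ofReal C * ∫⁻ t, ‖UU μ p g t‖ₑ ^ 2 * wt M t := by
  obtain ⟨k0, hk0⟩ := exists_ker
  obtain ⟨C0, hC0, hd⟩ := decay k0 M
  set K : (κ → ℝ) → ℂ := fun t => ∏ i, k0 (t i) with hK
  have hKi : Integrable K := by
    have := Integrable.fintype_prod (ι := κ) (f := fun _ => (k0 : ℝ → ℂ)) (μ := fun _ => (volume : Measure ℝ))
      (fun _ => k0.integrable)
    exact this
  have hKc : Continuous K := by
    have := k0.continuous
    fun_prop
  have hK1 : ∀ η : (κ → ℝ), (∀ i, |η i| ≤ 1) → ∫ t, K t * ee (∑ i, t i * η i) = 1 := by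
    intro η hη
    have : ∀ t : (κ → ℝ), K t * ee (∑ i, t i * η i) = ∏ i, (fun (i : κ) (s : ℝ) => k0 s * ee (s * η i)) i (t i) := by
      intro t
      rw [ee_sum, hK]
      simp only
      rw [← Finset.prod_mul_distrib]
    rw [integral_congr_ae (Filter.Eventually.of_forall this)]
    refine (integral_fintype_prod_volume_eq_prod (𝕜 := ℂ)
      (fun (i : κ) (s : ℝ) => k0 s * ee (s * η i))).trans ?_
    apply Finset.prod_eq_one
    intro i _
    exact hk0 _ (hη i)
  have hKd : ∀ t, ‖K t‖ ≤ C0 ^ Fintype.card κ * ((1 + l1 t) ^ M)⁻¹ := by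
    intro t
    rw [hK]
    simp only
    rw [norm_prod]
    calc ∏ i, ‖k0 (t i)‖ ≤ ∏ i, (C0 * ((1 + |t i|) ^ M)⁻¹) := by
          apply Finset.prod_le_prod
          · intro i _; exact norm_nonneg _
          · intro i _; exact hd _
      _ = C0 ^ Fintype.card κ * ((∏ i, (1 + |t i|)) ^ M)⁻¹ := by
          rw [Finset.prod_mul_distrib, Finset.prod_const, Finset.prod_inv_distrib, Finset.prod_pow]
          simp
      _ ≤ _ := by
          have h1 := one_add_l1_le t
          have h2 := l1_nonneg t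
          have h3 : (1 + l1 t) ^ M ≤ (∏ i, (1 + |t i|)) ^ M := pow_le_pow_left₀ (by linarith) h1 M
          have h4 : ((∏ i, (1 + |t i|)) ^ M)⁻¹ ≤ ((1 + l1 t) ^ M)⁻¹ := by
            apply inv_anti₀ _ h3
            have : 0 < 1 + l1 t := by linarith
            positivity
          gcongr
  refine ⟨(∫ t, ‖K t‖) * C0 ^ Fintype.card κ, by positivity, ?_⟩
  intro Ξ _ μ _ p g hp hg hsupp
  have hrep : UU μ p g 0 = ∫ t, K t * UU μ p g t := by
    have e1 : ∀ t, K t * UU μ p g t = ∫ ξ, K t * (g ξ * ee (∑ i, t i * p ξ i)) ∂μ := by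
      intro t
      unfold UU
      rw [integral_const_mul]
    simp_rw [e1]
    rw [integral_integral_swap]
    · unfold UU
      apply integral_congr_ae
      refine Filter.Eventually.of_forall fun ξ => ?_
      simp only [Pi.zero_apply, zero_mul, Finset.sum_const_zero, ee_zero, mul_one]
      by_cases hξ : g ξ = 0
      · simp [hξ]
      · have h1 := hK1 (p ξ) (hsupp ξ hξ)
        have : ∀ t, K t * (g ξ * ee (∑ i, t i * p ξ i)) = g ξ * (K t * ee (∑ i, t i * p ξ i)) := by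
          intro t; ring
        simp_rw [this]
        rw [integral_const_mul, h1, mul_one]
    · have hmul : Integrable (fun z : (κ → ℝ) × Ξ => K z.1 * g z.2) (volume.prod μ) := hKi.mul_prod hg
      have : Function.uncurry (fun (t : (κ → ℝ)) (ξ : Ξ) => K t * (g ξ * ee (∑ i, t i * p ξ i)))
          = fun z : (κ → ℝ) × Ξ => (K z.1 * g z.2) * ee (∑ i, z.1 i * p z.2 i) := by
        ext ⟨t, ξ⟩
        simp only [Function.uncurry]
        ring
      rw [this]
      refine hmul.mul_bdd (c := 1) ?_ ?_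
      · apply Measurable.aestronglyMeasurable
        fun_prop
      · exact Filter.Eventually.of_forall fun y => by rw [norm_ee]
  have hUc := UU_cont hp hg
  have h1 : ‖UU μ p g 0‖ₑ ≤ ∫⁻ t, ‖K t‖ₑ * ‖UU μ p g t‖ₑ := by
    rw [hrep]
    refine (enorm_integral_le_lintegral_enorm _).trans (le_of_eq ?_)
    simp_rw [enorm_mul]
  have hKm : AEMeasurable (fun t => ‖K t‖ₑ) volume := hKc.measurable.enorm.aemeasurable
  have hUm : AEMeasurable (fun t => ‖UU μ p g t‖ₑ) volume := hUc.measurable.enorm.aemeasurable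
  calc ‖UU μ p g 0‖ₑ ^ 2 ≤ (∫⁻ t, ‖K t‖ₑ * ‖UU μ p g t‖ₑ) ^ 2 := by gcongr
    _ ≤ (∫⁻ t, ‖K t‖ₑ) * ∫⁻ t, ‖K t‖ₑ * ‖UU μ p g t‖ₑ ^ 2 := cs_lint hKm hUm
    _ ≤ ENNReal.ofReal (∫ t, ‖K t‖) * ∫⁻ t, ENNReal.ofReal (C0 ^ Fintype.card κ) * (‖UU μ p g t‖ₑ ^ 2 * wt M t) := by
        apply mul_le_mul'
        · rw [ofReal_integral_norm_eq_lintegral_enorm hKi]
        · apply lintegral_mono
          intro t
          have : ‖K t‖ₑ ≤ ENNReal.ofReal (C0 ^ Fintype.card κ) * wt M t := by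
            unfold wt
            rw [← ENNReal.ofReal_mul (by positivity), ← ofReal_norm_eq_enorm]
            exact ENNReal.ofReal_le_ofReal (hKd t)
          calc ‖K t‖ₑ * ‖UU μ p g t‖ₑ ^ 2 ≤ (ENNReal.ofReal (C0 ^ Fintype.card κ) * wt M t) * ‖UU μ p g t‖ₑ ^ 2 := by gcongr
            _ = _ := by ring
    _ = _ := by
        rw [lintegral_const_mul' _ _ ENNReal.ofReal_ne_top, ← mul_assoc, ← ENNReal.ofReal_mul (by positivity)]

end Vale.Agent.P076T.LO
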