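import Vale.Agent.P076T.Wt

/-! # P076T : weighted means of `|evo G · s|²` : root, L1, subadditivity, orthogonality -/

set_option linter.all false

open MeasureTheory Complex Set
open scoped FourierTransform ENNReal

namespace Vale.Agent.P076T

open Vale.Agent.P076
open Vale.Agent.P076T.LO

variable {n : ℕ}

/-- weighted mean square, `lintegral` form -/
noncomputable def mnE (r M : ℝ) (x0 : E n) (u : E n → ℂ) : ℝ≥0∞ :=
  ENNReal.ofReal ((r ^ n)⁻¹) * ∫⁻ x, ‖u x‖ₑ ^ 2 * ENNReal.ofReal (wE M r (x - x0))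

/-- weighted mean square of the evolution at time `s`, scale `r`, centre `x0` -/
noncomputable def mean (r M : ℝ) (x0 : E n) (s : ℝ) (G : E n → ℂ) : ℝ :=
  (r ^ n)⁻¹ * ∫ x, ‖evo G x s 0‖ ^ 2 * wE M r (x - x0)

theorem mean_nonneg {r : ℝ} (hr : 0 < r) (M : ℝ) (x0 : E n) (s : ℝ) (G : E n → ℂ) : 0 ≤ mean r M x0 s G := by
  unfold mean
  exact mul_nonneg (by positivity) (integral_nonneg fun x => mul_nonneg (by positivity) (wE_pos hr _).le)

/-- a bounded continuous function squared times an integrable weight -/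
theorem sq_mul_int {u : E n → ℂ} (hu : Continuous u) {b : ℝ} (hb : ∀ x, ‖u x‖ ≤ b) {W : E n → ℝ} (hW : Integrable W) :
    Integrable (fun x => ‖u x‖ ^ 2 * W x) := by
  have : (fun x => ‖u x‖ ^ 2 * W x) = fun x => W x * ‖u x‖ ^ 2 := by ext x; ring
  rw [this]
  refine hW.mul_bdd (c := b ^ 2) (hu.norm.pow 2).aestronglyMeasurable ?_
  refine Filter.Eventually.of_forall fun x => ?_
  rw [norm_pow, norm_norm]
  exact pow_le_pow_left₀ (norm_nonneg _) (hb x) 2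

theorem evo_w_int {G : E n → ℂ} (hG : Integrable G) (s : ℝ) {W : E n → ℝ} (hW : Integrable W) :
    Integrable (fun x => ‖evo G x s 0‖ ^ 2 * W x) :=
  sq_mul_int (evo_cont_x hG s) (fun x => evo_bd G x s) hW

theorem ofReal_int_sq {u : E n → ℂ} {W : E n → ℝ} (hW : ∀ x, 0 ≤ W x) (hi : Integrable (fun x => ‖u x‖ ^ 2 * W x)) :
    ENNReal.ofReal (∫ x, ‖u x‖ ^ 2 * W x) = ∫⁻ x, ‖u x‖ₑ ^ 2 * ENNReal.ofReal (W x) := by
  rw [ofReal_integral_eq_lintegral_ofReal hi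
    (Filter.Eventually.of_forall fun x => mul_nonneg (by positivity) (hW x))]
  apply lintegral_congr
  intro x
  rw [ENNReal.ofReal_mul (by positivity), ENNReal.ofReal_pow (norm_nonneg _), ofReal_norm_eq_enorm]

theorem mean_int {r M : ℝ} (hM : (n : ℝ) < M) (hr : 0 < r) (x0 : E n) (s : ℝ) {G : E n → ℂ} (hG : Integrable G) :
    Integrable (fun x => ‖evo G x s 0‖ ^ 2 * wE M r (x - x0)) :=
  evo_w_int hG s (wE_integrable hM hr x0)

theorem mean_eq {r M : ℝ} (hM : (n : ℝ) < M) (hr : 0 < r) (x0 : E n) (s : ℝ) {G : E n → ℂ} (hG : Integrable G) :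
    ENNReal.ofReal (mean r M x0 s G) = mnE r M x0 (fun x => evo G x s 0) := by
  unfold mean mnE
  rw [ENNReal.ofReal_mul (by positivity), ofReal_int_sq (fun x => (wE_pos hr _).le) (mean_int hM hr x0 s hG)]

theorem evo_meas {G : E n → ℂ} (hG : Integrable G) (s : ℝ) : Measurable (fun x : E n => ‖evo G x s 0‖ₑ ^ 2) :=
  (evo_cont_x hG s).measurable.enorm.pow_const 2

/-- the kernel bound for times `|s - s'| ≤ B ρ²` -/
theorem ker_E (n : ℕ) (M A B : ℝ) (hM : 0 ≤ M) (hB : 0 ≤ B) : ∃ C : ℝ, 0 ≤ C ∧ ∀ (ρ : ℝ) (η0 : E n) (G : E n → ℂ),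
    0 < ρ → Integrable G → (∀ η, G η ≠ 0 → ∀ i, |η i - η0 i| ≤ A / ρ) → ∀ (x : E n) (s s' : ℝ), |s - s'| ≤ B * ρ ^ 2 →
      ‖evo G x s 0‖ₑ ^ 2 ≤ ENNReal.ofReal (C * (ρ ^ n)⁻¹) *
        ∫⁻ y : E n, ‖evo G y s' 0‖ₑ ^ 2 * ENNReal.ofReal (wE M ρ (x - (y + (2 * (s - s')) • η0))) := by
  obtain ⟨C, hC, H⟩ := kernel_evo_all n M A
  refine ⟨C * (1 + B) ^ n * (1 + B) ^ M, by positivity, fun ρ η0 G hρ hG hs x s s' hss => ?_⟩
  have hτ : |s - s'| / ρ ^ 2 ≤ B := by rwa [div_le_iff₀ (by positivity)]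
  have hτ0 : 0 ≤ |s - s'| / ρ ^ 2 := by positivity
  refine (H ρ η0 G hρ hG hs x s s').trans ?_
  have h1 : ∫⁻ y : E n, ‖evo G y s' 0‖ₑ ^ 2 *
      ENNReal.ofReal (wE M (ρ * (1 + |s - s'| / ρ ^ 2)) (x - y - (2 * (s - s')) • η0)) ≤
      ENNReal.ofReal ((1 + B) ^ M) *
        ∫⁻ y : E n, ‖evo G y s' 0‖ₑ ^ 2 * ENNReal.ofReal (wE M ρ (x - (y + (2 * (s - s')) • η0))) := by
    rw [← lintegral_const_mul' _ _ ENNReal.ofReal_ne_top]
    refine lintegral_mono fun y => ?_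
    rw [mul_left_comm, ← ENNReal.ofReal_mul (by positivity)]
    refine mul_le_mul' le_rfl (ENNReal.ofReal_le_ofReal ?_)
    rw [← sub_sub]
    refine (wE_scale hM hρ (by linarith) _).trans (mul_le_mul_of_nonneg_right ?_ (wE_pos hρ _).le)
    exact Real.rpow_le_rpow (by linarith) (by linarith) hM
  refine (mul_le_mul' le_rfl h1).trans ?_
  rw [← mul_assoc, ← ENNReal.ofReal_mul (by positivity)]
  refine mul_le_mul' (ENNReal.ofReal_le_ofReal ?_) le_rfl
  have h2 : (1 + |s - s'| / ρ ^ 2) ^ n ≤ (1 + B) ^ n := by gcongr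
  calc C * ((1 + |s - s'| / ρ ^ 2) ^ n / ρ ^ n) * (1 + B) ^ M ≤ C * ((1 + B) ^ n / ρ ^ n) * (1 + B) ^ M := by gcongr
    _ = _ := by ring

theorem lint_shift {M ρ B : ℝ} (hM : 0 ≤ M) (hρ : 0 < ρ) (hB : 0 ≤ B) (F : E n → ℝ≥0∞) {x0 x1 v : E n}
    (h : ‖x0 - x1 - v‖ ≤ B * ρ) :
    ∫⁻ y, F y * ENNReal.ofReal (wE M ρ (x0 - (y + v))) ≤
      ENNReal.ofReal ((1 + B) ^ M) * ∫⁻ y, F y * ENNReal.ofReal (wE M ρ (y - x1)) := by
  rw [← lintegral_const_mul' _ _ ENNReal.ofReal_ne_top]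
  refine lintegral_mono fun y => ?_
  rw [mul_left_comm, ← ENNReal.ofReal_mul (by positivity)]
  refine mul_le_mul' le_rfl (ENNReal.ofReal_le_ofReal ?_)
  rw [wE_sub_comm M ρ y x1]
  refine wE_shift hM hρ hB ?_
  rwa [show x0 - (y + v) - (x1 - y) = x0 - x1 - v by abel]

/-- **root**: the value at a point is at most the mean on the tube -/
theorem root_le (n : ℕ) (M A B : ℝ) (hM : (n : ℝ) < M) (hB : 0 ≤ B) : ∃ C : ℝ, 0 ≤ C ∧
    ∀ (ρ : ℝ) (η0 : E n) (G : E n → ℂ), 0 < ρ → Integrable G → (∀ η, G η ≠ 0 → ∀ i, |η i - η0 i| ≤ A / ρ) →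
      ∀ (x x1 : E n) (s s' : ℝ), |s - s'| ≤ B * ρ ^ 2 → ‖x - x1 - (2 * (s - s')) • η0‖ ≤ B * ρ →
        ‖evo G x s 0‖ ^ 2 ≤ C * mean ρ M x1 s' G := by
  have hM0 : 0 ≤ M := (Nat.cast_nonneg n).trans hM.le
  obtain ⟨C, hC, H⟩ := ker_E n M A B hM0 hB
  refine ⟨C * (1 + B) ^ M, by positivity, fun ρ η0 G hρ hG hs x x1 s s' hss hx => ?_⟩
  have hm := mean_nonneg hρ M x1 s' G
  rw [← ENNReal.ofReal_le_ofReal_iff (by positivity), ENNReal.ofReal_mul (by positivity), mean_eq hM hρ x1 s' hG,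
    ENNReal.ofReal_pow (norm_nonneg _), ofReal_norm_eq_enorm]
  refine (H ρ η0 G hρ hG hs x s s' hss).trans ((mul_le_mul' le_rfl (lint_shift hM0 hρ hB _ hx)).trans (le_of_eq ?_))
  unfold mnE
  rw [ENNReal.ofReal_mul hC, ENNReal.ofReal_mul hC]
  ring

/-- **L1 core**: a fine mean is at most the coarse mean on the tube -/
theorem mean_le (n : ℕ) (M A B : ℝ) (hM : (n : ℝ) < M) (hB : 0 ≤ B) : ∃ C : ℝ, 0 ≤ C ∧
    ∀ (r ρ : ℝ) (η0 : E n) (G : E n → ℂ), 0 < r → r ≤ ρ → Integrable G →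
      (∀ η, G η ≠ 0 → ∀ i, |η i - η0 i| ≤ A / ρ) →
      ∀ (x0 x1 : E n) (s s' : ℝ), |s - s'| ≤ B * ρ ^ 2 → ‖x0 - x1 - (2 * (s - s')) • η0‖ ≤ B * ρ →
        mean r M x0 s G ≤ C * mean ρ M x1 s' G := by
  have hM0 : 0 ≤ M := (Nat.cast_nonneg n).trans hM.le
  obtain ⟨C, hC, H⟩ := ker_E n M A B hM0 hB
  have hc := cI_nonneg n M
  refine ⟨C * (2 * 4 ^ M * cI n M) * (1 + B) ^ M, by positivity, fun r ρ η0 G hr hrρ hG hs x0 x1 s s' hss hx => ?_⟩
  have hρ : 0 < ρ := hr.trans_le hrρ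
  have hm := mean_nonneg hρ M x1 s' G
  rw [← ENNReal.ofReal_le_ofReal_iff (by positivity), ENNReal.ofReal_mul (by positivity), mean_eq hM hρ x1 s' hG,
    mean_eq hM hr x0 s hG]
  unfold mnE
  set v : E n := (2 * (s - s')) • η0 with hv
  set F : E n → ℝ≥0∞ := fun y => ‖evo G y s' 0‖ₑ ^ 2 with hF
  have hFm : Measurable F := evo_meas hG s'
  have w1 := wE_meas (n := n) M r
  have w2 := wE_meas (n := n) M ρ
  have h1 : ∫⁻ x, ‖evo G x s 0‖ₑ ^ 2 * ENNReal.ofReal (wE M r (x - x0)) ≤ ENNReal.ofReal (C * (ρ ^ n)⁻¹) *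
      ∫⁻ y, F y * ∫⁻ x, ENNReal.ofReal (wE M r (x - x0)) * ENNReal.ofReal (wE M ρ (x - (y + v))) := by
    calc ∫⁻ x, ‖evo G x s 0‖ₑ ^ 2 * ENNReal.ofReal (wE M r (x - x0))
        ≤ ∫⁻ x, ENNReal.ofReal (C * (ρ ^ n)⁻¹) * ∫⁻ y, F y *
            (ENNReal.ofReal (wE M r (x - x0)) * ENNReal.ofReal (wE M ρ (x - (y + v)))) := by
          refine lintegral_mono fun x => ?_
          refine (mul_le_mul' (H ρ η0 G hρ hG hs x s s' hss) le_rfl).trans (le_of_eq ?_)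
          rw [mul_assoc, ← lintegral_mul_const' _ _ ENNReal.ofReal_ne_top]
          congr 1
          apply lintegral_congr
          intro y
          ring
      _ = _ := by
          rw [lintegral_const_mul' _ _ ENNReal.ofReal_ne_top, lintegral_lintegral_swap]
          · congr 1
            apply lintegral_congr
            intro y
            rw [lintegral_const_mul]
            fun_prop
          · apply Measurable.aemeasurable
            unfold Function.uncurry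
            fun_prop
  have h2 : ∫⁻ y, F y * ∫⁻ x, ENNReal.ofReal (wE M r (x - x0)) * ENNReal.ofReal (wE M ρ (x - (y + v))) ≤
      ENNReal.ofReal (2 * 4 ^ M * cI n M * r ^ n) * ∫⁻ y, F y * ENNReal.ofReal (wE M ρ (x0 - (y + v))) := by
    rw [← lintegral_const_mul' _ _ ENNReal.ofReal_ne_top]
    refine lintegral_mono fun y => ?_
    rw [mul_left_comm, ← ENNReal.ofReal_mul (by positivity)]
    exact mul_le_mul' le_rfl (wE_conv hM hr hrρ x0 (y + v))
  have h3 := lint_shift hM0 hρ hB F hx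
  calc ENNReal.ofReal (r ^ n)⁻¹ * ∫⁻ x, ‖evo G x s 0‖ₑ ^ 2 * ENNReal.ofReal (wE M r (x - x0))
      ≤ ENNReal.ofReal (r ^ n)⁻¹ * (ENNReal.ofReal (C * (ρ ^ n)⁻¹) * (ENNReal.ofReal (2 * 4 ^ M * cI n M * r ^ n) *
          (ENNReal.ofReal ((1 + B) ^ M) * ∫⁻ y, F y * ENNReal.ofReal (wE M ρ (y - x1))))) :=
        mul_le_mul' le_rfl (h1.trans (mul_le_mul' le_rfl (h2.trans (mul_le_mul' le_rfl h3))))
    _ = _ := by
        simp only [← mul_assoc]
        congr 1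
        rw [← ENNReal.ofReal_mul (by positivity), ← ENNReal.ofReal_mul (by positivity),
          ← ENNReal.ofReal_mul (by positivity), ← ENNReal.ofReal_mul (by positivity)]
        congr 1
        field_simp

/-- moving the centre of a mean -/
theorem mean_shift {r M B : ℝ} (hM : (n : ℝ) < M) (hr : 0 < r) (hB : 0 ≤ B) {x0 x1 : E n} (h : ‖x0 - x1‖ ≤ B * r)
    (s : ℝ) {G : E n → ℂ} (hG : Integrable G) : mean r M x0 s G ≤ (1 + B) ^ M * mean r M x1 s G := by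
  have hM0 : 0 ≤ M := (Nat.cast_nonneg n).trans hM.le
  unfold mean
  rw [mul_left_comm, ← integral_const_mul ((1 + B) ^ M)]
  refine mul_le_mul_of_nonneg_left ?_ (inv_nonneg.mpr (pow_nonneg hr.le n))
  refine integral_mono (mean_int hM hr x0 s hG) ((mean_int hM hr x1 s hG).const_mul _) fun x => ?_
  simp only
  rw [mul_left_comm]
  refine mul_le_mul_of_nonneg_left (wE_shift hM0 hr hB ?_) (by positivity)
  rwa [show x - x0 - (x - x1) = -(x0 - x1) by abel, norm_neg]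

theorem sqrt_le_of_theta {X A B : ℝ} (hA : 0 ≤ A) (hB : 0 ≤ B)
    (h : ∀ θ : ℝ, 0 < θ → X ≤ (1 + θ) * A + (1 + θ⁻¹) * B) : Real.sqrt X ≤ Real.sqrt A + Real.sqrt B := by
  refine le_of_forall_pos_le_add fun ε hε => ?_
  set a := Real.sqrt A + ε / 2 with ha
  set b := Real.sqrt B + ε / 2 with hb
  have h1 := Real.sqrt_nonneg A
  have h2 := Real.sqrt_nonneg B
  have ha0 : 0 < a := by linarith
  have hb0 : 0 < b := by linarith
  have h3 : A ≤ a ^ 2 := by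
    have := Real.sq_sqrt hA
    nlinarith
  have h4 : B ≤ b ^ 2 := by
    have := Real.sq_sqrt hB
    nlinarith
  have h5 := h (b / a) (by positivity)
  have h6 : X ≤ (a + b) ^ 2 := by
    calc X ≤ (1 + b / a) * A + (1 + (b / a)⁻¹) * B := h5
      _ ≤ (1 + b / a) * a ^ 2 + (1 + (b / a)⁻¹) * b ^ 2 := by gcongr
      _ = _ := by field_simp; ring
  calc Real.sqrt X ≤ Real.sqrt ((a + b) ^ 2) := Real.sqrt_le_sqrt h6
    _ = a + b := Real.sqrt_sq (by positivity)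
    _ = _ := by rw [ha, hb]; ring

/-- **subadditivity** -/
theorem sqrt_mean_add {r M : ℝ} (hM : (n : ℝ) < M) (hr : 0 < r) (x0 : E n) (s : ℝ) {G H : E n → ℂ}
    (hG : Integrable G) (hH : Integrable H) :
    Real.sqrt (mean r M x0 s (G + H)) ≤ Real.sqrt (mean r M x0 s G) + Real.sqrt (mean r M x0 s H) := by
  refine sqrt_le_of_theta (mean_nonneg hr _ _ _ _) (mean_nonneg hr _ _ _ _) fun θ hθ => ?_
  unfold mean
  rw [mul_left_comm, mul_left_comm (1 + θ⁻¹), ← mul_add, ← integral_const_mul (1 + θ), ← integral_const_mul (1 + θ⁻¹),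
    ← integral_add ((mean_int hM hr x0 s hG).const_mul _) ((mean_int hM hr x0 s hH).const_mul _)]
  refine mul_le_mul_of_nonneg_left ?_ (inv_nonneg.mpr (pow_nonneg hr.le n))
  refine integral_mono (mean_int hM hr x0 s (hG.add hH))
    (((mean_int hM hr x0 s hG).const_mul _).add ((mean_int hM hr x0 s hH).const_mul _)) fun x => ?_
  simp only
  rw [← mul_assoc, ← mul_assoc, ← add_mul]
  refine mul_le_mul_of_nonneg_right ?_ (wE_pos hr _).le
  rw [evo_add hG hH]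
  set a := ‖evo G x s 0‖
  set b := ‖evo H x s 0‖
  have h1 : ‖evo G x s 0 + evo H x s 0‖ ^ 2 ≤ (a + b) ^ 2 := pow_le_pow_left₀ (norm_nonneg _) (norm_add_le _ _) 2
  have h2 : 2 * a * b ≤ θ * a ^ 2 + θ⁻¹ * b ^ 2 := by
    have h3 : θ * a ^ 2 + θ⁻¹ * b ^ 2 - 2 * a * b = θ⁻¹ * (θ * a - b) ^ 2 := by field_simp; ring
    have h4 : 0 ≤ θ⁻¹ * (θ * a - b) ^ 2 := by positivity
    linarith
  nlinarith

theorem mean_zero (r M : ℝ) (x0 : E n) (s : ℝ) : mean r M x0 s (fun _ => 0) = 0 := by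
  unfold mean
  simp [evo_ee]

theorem sqrt_mean_sum {r M : ℝ} (hM : (n : ℝ) < M) (hr : 0 < r) (x0 : E n) (s : ℝ) {ι : Type*} (I : Finset ι)
    {G : ι → E n → ℂ} (hG : ∀ k ∈ I, Integrable (G k)) :
    Real.sqrt (mean r M x0 s (fun η => ∑ k ∈ I, G k η)) ≤ ∑ k ∈ I, Real.sqrt (mean r M x0 s (G k)) := by
  classical
  induction I using Finset.induction_on with
  | empty => simp [mean_zero]
  | insert j I hj ih =>
    have h1 : (fun η => ∑ k ∈ insert j I, G k η) = G j + fun η => ∑ k ∈ I, G k η := by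
      ext η
      rw [Finset.sum_insert hj, Pi.add_apply]
    rw [h1, Finset.sum_insert hj]
    have h2 : ∀ k ∈ I, Integrable (G k) := fun k hk => hG k (Finset.mem_insert_of_mem hk)
    refine (sqrt_mean_add hM hr x0 s (hG j (Finset.mem_insert_self j I)) (integrable_finsetSum _ h2)).trans ?_
    exact add_le_add le_rfl (ih h2)

end Vale.Agent.P076T
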