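import Vale.Agent.P076T.Ort

/-! # P076T : orthogonality up to overlaps for an arbitrary moderate weight -/

open MeasureTheory Complex Set
open scoped ENNReal NNReal ContDiff FourierTransform SchwartzMap

set_option linter.all false

namespace Vale.Agent.P076T.LO

open Vale.Agent.P122.H84 (ee norm_ee ee_add ee_zero conj_ee continuous_ee measurable_ee char_eq decay exists_ker
  exists_FF cs_lint int_pow2 F_int)

variable {κ : Type} [Fintype κ]

/-- moderate weights -/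
def Mod (M : ℕ) (K : ℝ) (w : (κ → ℝ) → ℝ≥0∞) : Prop :=
  ∀ s t, w t ≤ ENNReal.ofReal (K * (1 + l1 (s - t)) ^ M) * w s

lemma mod_wt (M : ℕ) : Mod M 1 (wt M : (κ → ℝ) → ℝ≥0∞) := by
  intro s t
  rw [one_mul]
  exact wt_peetre M s t

lemma w_lower {F : ℝ → ℝ} {c : ℝ} (hc : 0 < c) (hF : ∀ s, |s| ≤ 1 → c ≤ F s) (hF0 : ∀ s, 0 ≤ F s) (M : ℕ) {K : ℝ}
    (hK : 0 < K) {w : (κ → ℝ) → ℝ≥0∞} (hw : Mod M K w) (t : (κ → ℝ)) :
    ENNReal.ofReal (c ^ Fintype.card κ * (K * (1 + (Fintype.card κ : ℝ)) ^ M)⁻¹) * w t ≤ ∫⁻ y, ENNReal.ofReal (Fd F (t - y)) * w y := by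
  set B : Set (κ → ℝ) := Icc (fun i => t i - 1) (fun i => t i + 1) with hB
  have hvol : volume B = 2 ^ Fintype.card κ := by
    rw [hB, Real.volume_Icc_pi]
    have : ∀ i : κ, ENNReal.ofReal (t i + 1 - (t i - 1)) = 2 := by
      intro i
      rw [show t i + 1 - (t i - 1) = 2 by ring]
      norm_num
    simp_rw [this]
    rw [Finset.prod_const, Finset.card_univ]
  have hpt : ∀ y ∈ B, ENNReal.ofReal (c ^ Fintype.card κ * (K * (1 + (Fintype.card κ : ℝ)) ^ M)⁻¹) * w t ≤ ENNReal.ofReal (Fd F (t - y)) * w y := by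
    intro y hy
    have hy' : ∀ i, |t i - y i| ≤ 1 := by
      intro i
      have h1 := hy.1 i
      have h2 := hy.2 i
      rw [abs_le]
      constructor <;> linarith
    have h1 : c ^ Fintype.card κ ≤ Fd F (t - y) := by
      unfold Fd
      calc c ^ Fintype.card κ = ∏ _i : κ, c := by simp
        _ ≤ _ := Finset.prod_le_prod (fun _ _ => hc.le) fun i _ => hF _ (hy' i)
    have h2 : w t ≤ ENNReal.ofReal (K * (1 + (Fintype.card κ : ℝ)) ^ M) * w y := by
      refine (hw y t).trans ?_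
      gcongr
      · have := l1_nonneg (y - t); linarith
      · unfold l1
        calc ∑ i, |(y - t) i| ≤ ∑ _i : κ, (1:ℝ) := by
              apply Finset.sum_le_sum
              intro i _
              rw [Pi.sub_apply, abs_sub_comm]
              exact hy' i
          _ = _ := by simp
    calc ENNReal.ofReal (c ^ Fintype.card κ * (K * (1 + (Fintype.card κ : ℝ)) ^ M)⁻¹) * w t
        ≤ ENNReal.ofReal (c ^ Fintype.card κ * (K * (1 + (Fintype.card κ : ℝ)) ^ M)⁻¹) * (ENNReal.ofReal (K * (1 + (Fintype.card κ : ℝ)) ^ M) * w y) := by gcongr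
      _ = ENNReal.ofReal (c ^ Fintype.card κ) * w y := by
          rw [← mul_assoc, ← ENNReal.ofReal_mul (by positivity)]
          congr 2
          field_simp
      _ ≤ _ := by gcongr
  calc ENNReal.ofReal (c ^ Fintype.card κ * (K * (1 + (Fintype.card κ : ℝ)) ^ M)⁻¹) * w t
      ≤ 2 ^ Fintype.card κ * (ENNReal.ofReal (c ^ Fintype.card κ * (K * (1 + (Fintype.card κ : ℝ)) ^ M)⁻¹) * w t) := by
        have : (1:ℝ≥0∞) ≤ 2 ^ Fintype.card κ := one_le_pow₀ (by norm_num)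
        calc _ = 1 * (ENNReal.ofReal (c ^ Fintype.card κ * (K * (1 + (Fintype.card κ : ℝ)) ^ M)⁻¹) * w t) := by rw [one_mul]
          _ ≤ _ := by gcongr
    _ = ∫⁻ _ in B, ENNReal.ofReal (c ^ Fintype.card κ * (K * (1 + (Fintype.card κ : ℝ)) ^ M)⁻¹) * w t := by
        rw [setLIntegral_const, hvol, mul_comm]
    _ ≤ ∫⁻ y in B, ENNReal.ofReal (Fd F (t - y)) * w y := by
        apply setLIntegral_mono' measurableSet_Icc hpt
    _ ≤ _ := setLIntegral_le_lintegral _ _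

lemma w_upper {F : ℝ → ℝ} (hF0 : ∀ s, 0 ≤ F s)
    (hd : ∀ M : ℕ, ∃ C : ℝ, 0 ≤ C ∧ ∀ s : ℝ, F s ≤ C * ((1 + |s|) ^ M)⁻¹) (M : ℕ) :
    ∃ C : ℝ, 0 ≤ C ∧ ∀ (K : ℝ) (w : (κ → ℝ) → ℝ≥0∞), 0 < K → Mod M K w → ∀ t : (κ → ℝ),
      ∫⁻ y, ENNReal.ofReal (Fd F (t - y)) * w y ≤ ENNReal.ofReal (K * C) * w t := by
  obtain ⟨C, hC, h⟩ := hd (M + 2)
  set q : (κ → ℝ) → ℝ := fun t => ∏ i, ((1 + |t i|) ^ 2)⁻¹ with hq
  have hqi : Integrable q := by
    have := Integrable.fintype_prod (ι := κ) (f := fun _ => fun s : ℝ => ((1 + |s|) ^ 2)⁻¹)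
      (μ := fun _ => (volume : Measure ℝ)) (fun _ => int_pow2)
    exact this
  have hq0 : ∀ t, 0 ≤ q t := fun t => Finset.prod_nonneg fun i _ => by positivity
  refine ⟨C ^ Fintype.card κ * ∫ t, q t, mul_nonneg (by positivity) (integral_nonneg hq0), fun K w hK hw t => ?_⟩
  have hpt : ∀ y, ENNReal.ofReal (Fd F (t - y)) * w y ≤ ENNReal.ofReal (K * (C ^ Fintype.card κ * q (t - y))) * w t := by
    intro y
    have h1 := hw t y
    have h2 : Fd F (t - y) * (1 + l1 (t - y)) ^ M ≤ C ^ Fintype.card κ * q (t - y) := by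
      have h3 : (1 + l1 (t - y)) ^ M ≤ (∏ i, (1 + |(t - y) i|)) ^ M :=
        pow_le_pow_left₀ (by have := l1_nonneg (t - y); linarith) (one_add_l1_le _) M
      have h4 : Fd F (t - y) ≤ ∏ i, (C * ((1 + |(t - y) i|) ^ (M + 2))⁻¹) := by
        unfold Fd
        exact Finset.prod_le_prod (fun i _ => hF0 _) fun i _ => h _
      calc Fd F (t - y) * (1 + l1 (t - y)) ^ M
          ≤ (∏ i, (C * ((1 + |(t - y) i|) ^ (M + 2))⁻¹)) * (∏ i, (1 + |(t - y) i|)) ^ M := by
            apply mul_le_mul h4 h3 (by have := l1_nonneg (t - y); positivity)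
            exact Finset.prod_nonneg fun i _ => by positivity
        _ = C ^ Fintype.card κ * q (t - y) := by
            rw [hq]
            simp only
            rw [← Finset.prod_pow, ← Finset.prod_mul_distrib]
            calc ∏ i, (C * ((1 + |(t - y) i|) ^ (M + 2))⁻¹ * (1 + |(t - y) i|) ^ M)
                = ∏ i, (C * ((1 + |(t - y) i|) ^ 2)⁻¹) := by
                  apply Finset.prod_congr rfl
                  intro i _
                  have : (0:ℝ) < 1 + |(t - y) i| := by positivity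
                  rw [pow_add]
                  field_simp
              _ = _ := by
                  rw [Finset.prod_mul_distrib, Finset.prod_const]
                  simp
    calc ENNReal.ofReal (Fd F (t - y)) * w y
        ≤ ENNReal.ofReal (Fd F (t - y)) * (ENNReal.ofReal (K * (1 + l1 (t - y)) ^ M) * w t) := by gcongr
      _ = ENNReal.ofReal (K * (Fd F (t - y) * (1 + l1 (t - y)) ^ M)) * w t := by
          rw [← mul_assoc, ← ENNReal.ofReal_mul (Fd_nonneg hF0 _)]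
          congr 2
          ring
      _ ≤ _ := by gcongr
  have hqm : Measurable q := by
    rw [hq]
    fun_prop
  calc ∫⁻ y, ENNReal.ofReal (Fd F (t - y)) * w y
      ≤ ∫⁻ y, ENNReal.ofReal (K * (C ^ Fintype.card κ * q (t - y))) * w t := lintegral_mono hpt
    _ = (∫⁻ y, ENNReal.ofReal (K * (C ^ Fintype.card κ * q (t - y)))) * w t := by
        rw [lintegral_mul_const]
        fun_prop
    _ = (∫⁻ y, ENNReal.ofReal (K * (C ^ Fintype.card κ * q y))) * w t := by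
        rw [lintegral_sub_left_eq_self (fun y => ENNReal.ofReal (K * (C ^ Fintype.card κ * q y))) t]
    _ = _ := by
        rw [← ofReal_integral_eq_lintegral_ofReal ((hqi.const_mul _).const_mul _)
          (Filter.Eventually.of_forall fun y => mul_nonneg hK.le (mul_nonneg (by positivity) (hq0 y))),
          integral_const_mul, integral_const_mul]

/-- [OR] orthogonality up to overlaps, moderate weight -/
theorem ordw (κ : Type) [Fintype κ] (M : ℕ) : ∃ C : ℝ, 0 ≤ C ∧ ∀ (K : ℝ) (w : (κ → ℝ) → ℝ≥0∞), 0 < K → Measurable w →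
    Mod M K w → ∀ (Ξ : Type) [MeasurableSpace Ξ] (μ : Measure Ξ) [SFinite μ] (p : Ξ → (κ → ℝ))
    (ι : Type) (I : Finset ι) (g : ι → Ξ → ℂ) (m : ℕ), Measurable p → (∀ k ∈ I, Integrable (g k) μ) →
    (∀ k ∈ I, ∀ J ⊆ I, (∀ l ∈ J, ∃ ξ η, g k ξ ≠ 0 ∧ g l η ≠ 0 ∧ ∀ i, |p ξ i - p η i| ≤ 1) → J.card ≤ m) →
    ∫⁻ t, ‖∑ k ∈ I, UU μ p (g k) t‖ₑ ^ 2 * w t ≤
      ENNReal.ofReal (C * K ^ 2 * m) * ∑ k ∈ I, ∫⁻ t, ‖UU μ p (g k) t‖ₑ ^ 2 * w t := by
  classical
  obtain ⟨F, hFc, hF0, ⟨c, hc, hFl⟩, hd, hFz⟩ := exists_FF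
  obtain ⟨C1, hC1, hup⟩ := w_upper (κ := κ) hF0 hd M
  have hFi := F_int hFc hF0 hd
  have hFdi := Fd_int (κ := κ) hFi
  refine ⟨(c ^ Fintype.card κ)⁻¹ * (1 + (Fintype.card κ : ℝ)) ^ M * C1, by positivity, ?_⟩
  intro K w hK hwm hw Ξ _ μ _ p ι I g m hp hg hov
  set c1 : ℝ := c ^ Fintype.card κ * (K * (1 + (Fintype.card κ : ℝ)) ^ M)⁻¹ with hc1
  have hc1p : 0 < c1 := by positivity
  have hUc : ∀ k ∈ I, Continuous (UU μ p (g k)) := fun k hk => UU_cont hp (hg k hk)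
  have hSc : Continuous (fun t => ∑ k ∈ I, UU μ p (g k) t) := continuous_finsetSum _ hUc
  -- one translate
  have key : ∀ y : (κ → ℝ), ∫⁻ t, ‖∑ k ∈ I, UU μ p (g k) t‖ₑ ^ 2 * ENNReal.ofReal (Fd F (t - y)) ≤
      ENNReal.ofReal m * ∑ k ∈ I, ∫⁻ t, ‖UU μ p (g k) t‖ₑ ^ 2 * ENNReal.ofReal (Fd F (t - y)) := by
    intro y
    have hWi : Integrable (fun t => Fd F (t - y)) := hFdi.comp_sub_right y
    have hW0 : ∀ t, 0 ≤ Fd F (t - y) := fun t => Fd_nonneg hF0 _
    let adj : ι → ι → Prop := fun a b => ∃ ξ η, g a ξ ≠ 0 ∧ g b η ≠ 0 ∧ ∀ i, |p ξ i - p η i| ≤ 1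
    have hs : ∀ a b, adj a b → adj b a := by
      rintro a b ⟨ξ, η, h1, h2, h3⟩
      exact ⟨η, ξ, h2, h1, fun i => by rw [abs_sub_comm]; exact h3 i⟩
    have h := orth0 μ p hp I g hg (fun t => Fd F (t - y)) hW0 hWi adj hs ?_ m ?_
    · have conv : ∀ f : (κ → ℝ) → ℂ, Continuous f → (∃ B : ℝ, ∀ t, ‖f t‖ ≤ B) →
          ∫⁻ t, ‖f t‖ₑ ^ 2 * ENNReal.ofReal (Fd F (t - y)) = ENNReal.ofReal (∫ t, ‖f t‖ ^ 2 * Fd F (t - y)) := by
        rintro f hf ⟨B, hB⟩
        rw [ofReal_integral_eq_lintegral_ofReal]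
        · apply lintegral_congr
          intro t
          rw [ENNReal.ofReal_mul (by positivity), ENNReal.ofReal_pow (norm_nonneg _), ofReal_norm_eq_enorm]
        · have : (fun t => ‖f t‖ ^ 2 * Fd F (t - y)) = fun t => Fd F (t - y) * ‖f t‖ ^ 2 := by ext t; ring
          rw [this]
          refine hWi.mul_bdd (c := B ^ 2) ?_ ?_
          · exact (hf.norm.pow 2).aestronglyMeasurable
          · refine Filter.Eventually.of_forall fun t => ?_
            rw [norm_pow, norm_norm]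
            exact pow_le_pow_left₀ (norm_nonneg _) (hB t) 2
        · exact Filter.Eventually.of_forall fun t => mul_nonneg (by positivity) (hW0 t)
      rw [conv _ hSc ⟨∑ k ∈ I, ∫ ξ, ‖g k ξ‖ ∂μ, fun t => (norm_sum_le _ _).trans
        (Finset.sum_le_sum fun k _ => UU_bd _ _ _ _)⟩]
      have h2 : ∀ k ∈ I, ∫⁻ t, ‖UU μ p (g k) t‖ₑ ^ 2 * ENNReal.ofReal (Fd F (t - y))
          = ENNReal.ofReal (∫ t, ‖UU μ p (g k) t‖ ^ 2 * Fd F (t - y)) := by
        intro k hk
        exact conv _ (hUc k hk) ⟨_, fun t => UU_bd _ _ _ _⟩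
      rw [Finset.sum_congr rfl h2, ← ENNReal.ofReal_sum_of_nonneg, ← ENNReal.ofReal_mul (by positivity)]
      · exact ENNReal.ofReal_le_ofReal h
      · intro k _
        exact integral_nonneg fun t => mul_nonneg (by positivity) (hW0 t)
    · intro a ha b hb hab ξ η h1 h2
      have hex : ∃ i, 1 ≤ |p ξ i - p η i| := by
        by_contra hcon
        push Not at hcon
        exact hab ⟨ξ, η, h1, h2, fun i => (hcon i).le⟩
      exact Fd_four hFz y (fun i => p ξ i - p η i) hex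
    · intro a ha
      apply hov a ha _ (Finset.filter_subset _ _)
      intro l hl
      exact (Finset.mem_filter.mp hl).2
  -- integrate over the translates
  have hFdm : Measurable (fun z : (κ → ℝ) × (κ → ℝ) => ENNReal.ofReal (Fd F (z.1 - z.2))) := by
    have := (Fd_cont (κ := κ) hFc).measurable
    fun_prop
  have swap : ∀ f : (κ → ℝ) → ℝ≥0∞, Measurable f →
      ∫⁻ t, f t * ∫⁻ y, ENNReal.ofReal (Fd F (t - y)) * w y = ∫⁻ y, w y * ∫⁻ t, f t * ENNReal.ofReal (Fd F (t - y)) := by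
    intro f hf
    have h1 : ∀ t, f t * ∫⁻ y, ENNReal.ofReal (Fd F (t - y)) * w y
        = ∫⁻ y, f t * (ENNReal.ofReal (Fd F (t - y)) * w y) := by
      intro t
      rw [lintegral_const_mul]
      have := (Fd_cont (κ := κ) hFc).measurable
      fun_prop
    have h2 : ∀ y, w y * ∫⁻ t, f t * ENNReal.ofReal (Fd F (t - y))
        = ∫⁻ t, f t * (ENNReal.ofReal (Fd F (t - y)) * w y) := by
      intro y
      rw [← lintegral_const_mul]
      · apply lintegral_congr
        intro t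
        ring
      · have := (Fd_cont (κ := κ) hFc).measurable
        fun_prop
    simp_rw [h1, h2]
    rw [lintegral_lintegral_swap]
    have := (Fd_cont (κ := κ) hFc).measurable
    apply Measurable.aemeasurable
    fun_prop
  have hAm : Measurable (fun t => ‖∑ k ∈ I, UU μ p (g k) t‖ₑ ^ 2) := hSc.measurable.enorm.pow_const 2
  have hBm : ∀ k ∈ I, Measurable (fun t => ‖UU μ p (g k) t‖ₑ ^ 2) := fun k hk => (hUc k hk).measurable.enorm.pow_const 2
  have step1 : ENNReal.ofReal c1 * ∫⁻ t, ‖∑ k ∈ I, UU μ p (g k) t‖ₑ ^ 2 * w t ≤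
      ENNReal.ofReal m * ∑ k ∈ I, (ENNReal.ofReal (K * C1) * ∫⁻ t, ‖UU μ p (g k) t‖ₑ ^ 2 * w t) := by
    calc ENNReal.ofReal c1 * ∫⁻ t, ‖∑ k ∈ I, UU μ p (g k) t‖ₑ ^ 2 * w t
        = ∫⁻ t, ‖∑ k ∈ I, UU μ p (g k) t‖ₑ ^ 2 * (ENNReal.ofReal c1 * w t) := by
          rw [← lintegral_const_mul' _ _ ENNReal.ofReal_ne_top]
          apply lintegral_congr
          intro t
          ring
      _ ≤ ∫⁻ t, ‖∑ k ∈ I, UU μ p (g k) t‖ₑ ^ 2 * ∫⁻ y, ENNReal.ofReal (Fd F (t - y)) * w y := by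
          apply lintegral_mono
          intro t
          exact mul_le_mul' le_rfl (w_lower hc hFl hF0 M hK hw t)
      _ = ∫⁻ y, w y * ∫⁻ t, ‖∑ k ∈ I, UU μ p (g k) t‖ₑ ^ 2 * ENNReal.ofReal (Fd F (t - y)) := swap _ hAm
      _ ≤ ∫⁻ y, w y * (ENNReal.ofReal m * ∑ k ∈ I, ∫⁻ t, ‖UU μ p (g k) t‖ₑ ^ 2 * ENNReal.ofReal (Fd F (t - y))) := by
          apply lintegral_mono
          intro y
          exact mul_le_mul' le_rfl (key y)
      _ = ENNReal.ofReal m * ∑ k ∈ I, ∫⁻ y, w y * ∫⁻ t, ‖UU μ p (g k) t‖ₑ ^ 2 * ENNReal.ofReal (Fd F (t - y)) := by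
          have hmeas : ∀ k ∈ I, Measurable (fun y => w y * ∫⁻ t, ‖UU μ p (g k) t‖ₑ ^ 2 * ENNReal.ofReal (Fd F (t - y))) := by
            intro k hk
            apply hwm.mul
            have h3 := hBm k hk
            have h4 : Measurable (fun z : (κ → ℝ) × (κ → ℝ) => ‖UU μ p (g k) z.2‖ₑ ^ 2 * ENNReal.ofReal (Fd F (z.2 - z.1))) := by
              have h5 := (Fd_cont (κ := κ) hFc).measurable
              exact (h3.comp measurable_snd).mul (by fun_prop)
            exact h4.lintegral_prod_right'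
          rw [← lintegral_finsetSum _ hmeas, ← lintegral_const_mul' _ _ ENNReal.ofReal_ne_top]
          apply lintegral_congr
          intro y
          rw [Finset.mul_sum, Finset.mul_sum, Finset.mul_sum]
          apply Finset.sum_congr rfl
          intro k _
          ring
      _ ≤ ENNReal.ofReal m * ∑ k ∈ I, (ENNReal.ofReal (K * C1) * ∫⁻ t, ‖UU μ p (g k) t‖ₑ ^ 2 * w t) := by
          gcongr with k hk
          rw [← swap _ (hBm k hk), ← lintegral_const_mul' _ _ ENNReal.ofReal_ne_top]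
          apply lintegral_mono
          intro t
          calc ‖UU μ p (g k) t‖ₑ ^ 2 * ∫⁻ y, ENNReal.ofReal (Fd F (t - y)) * w y
              ≤ ‖UU μ p (g k) t‖ₑ ^ 2 * (ENNReal.ofReal (K * C1) * w t) := mul_le_mul' le_rfl (hup K w hK hw t)
            _ = _ := by ring
  have hc1e : ENNReal.ofReal c1⁻¹ * ENNReal.ofReal c1 = 1 := by
    rw [← ENNReal.ofReal_mul (by positivity), inv_mul_cancel₀ hc1p.ne', ENNReal.ofReal_one]
  calc ∫⁻ t, ‖∑ k ∈ I, UU μ p (g k) t‖ₑ ^ 2 * w t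
      = ENNReal.ofReal c1⁻¹ * (ENNReal.ofReal c1 * ∫⁻ t, ‖∑ k ∈ I, UU μ p (g k) t‖ₑ ^ 2 * w t) := by
        rw [← mul_assoc, hc1e, one_mul]
    _ ≤ ENNReal.ofReal c1⁻¹ * (ENNReal.ofReal m * ∑ k ∈ I, (ENNReal.ofReal (K * C1) * ∫⁻ t, ‖UU μ p (g k) t‖ₑ ^ 2 * w t)) := by
        gcongr
    _ = _ := by
        have e : (c ^ Fintype.card κ)⁻¹ * (1 + (Fintype.card κ : ℝ)) ^ M * C1 * K ^ 2 * m = c1⁻¹ * (m * (K * C1)) := by
          rw [hc1]
          field_simp
        rw [← Finset.mul_sum, e, ENNReal.ofReal_mul (inv_nonneg.mpr hc1p.le), ENNReal.ofReal_mul (Nat.cast_nonneg m)]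
        ring

end Vale.Agent.P076T.LO
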