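import Vale.Agent.P076T.MeanO

/-! # P076T : the slab bound (functions that are band limited in the normal directions) -/

set_option linter.all false

open MeasureTheory Complex Set
open scoped FourierTransform ENNReal

namespace Vale.Agent.P076T

open Vale.Agent.P076
open Vale.Agent.P076T.LO
open Vale.Agent.P122.H84 (int_pow2)

variable {n : ℕ}

/-- `∫ (1 + |w|)⁻²` -/
noncomputable def c2 : ℝ := ∫ w : ℝ, ((1 + |w|) ^ 2)⁻¹

theorem c2_nonneg : 0 ≤ c2 := integral_nonneg fun w => by positivity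

theorem prod_int {κ : Type} [Fintype κ] {L : ℝ} (hL : 0 < L) (c : κ → ℝ) :
    Integrable (fun t : κ → ℝ => ∏ l, ((1 + |t l - c l| / L) ^ 2)⁻¹) ∧
      ∫ t : κ → ℝ, ∏ l, ((1 + |t l - c l| / L) ^ 2)⁻¹ = (L * c2) ^ Fintype.card κ := by
  have e0 : ∀ z a : ℝ, ((1 + |z - a| / L) ^ 2)⁻¹ = ((1 + |L⁻¹ * (z - a)|) ^ 2)⁻¹ := by
    intro z a
    rw [abs_mul, abs_of_pos (inv_pos.2 hL), div_eq_inv_mul]
  have hI : ∀ l : κ, Integrable (fun z : ℝ => ((1 + |z - c l| / L) ^ 2)⁻¹) := by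
    intro l
    have h1 : Integrable (fun z : ℝ => ((1 + |(L⁻¹ * z)|) ^ 2)⁻¹) := int_pow2.comp_mul_left' (inv_ne_zero hL.ne')
    simp_rw [e0]
    exact h1.comp_sub_right (c l)
  refine ⟨Integrable.fintype_prod (f := fun l z => ((1 + |z - c l| / L) ^ 2)⁻¹) hI, ?_⟩
  rw [integral_fintype_prod_volume_eq_prod (fun l (z : ℝ) => ((1 + |z - c l| / L) ^ 2)⁻¹)]
  have e : ∀ l : κ, (∫ z : ℝ, ((1 + |z - c l| / L) ^ 2)⁻¹) = L * c2 := by
    intro l
    have h1 := integral_sub_right_eq_self (μ := volume) (fun z : ℝ => ((1 + |L⁻¹ * z|) ^ 2)⁻¹) (c l)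
    have h2 := Measure.integral_comp_mul_left (fun w : ℝ => ((1 + |w|) ^ 2)⁻¹) L⁻¹
    rw [inv_inv, abs_of_pos hL, smul_eq_mul] at h2
    simp_rw [e0]
    rw [h1, h2, c2]
  simp_rw [e]
  simp

theorem wE_zero (M L : ℝ) : wE M L (0 : E n) = 1 := by
  unfold wE
  simp

/-- one point of the ball -/
theorem wE_point {M r ρ B : ℝ} (hM : 0 ≤ M) (hr : 0 < r) (hρ : 0 < ρ) (hB : 0 ≤ B) {x x0 : E n}
    (h : ‖x - x0‖ ≤ B * ρ) (y : E n) :
    wE M r (y - x) ≤ (2 * B + 4) ^ M * wE M ρ (y - x0) * (wE M r (y - x) + (r / ρ) ^ M) := by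
  have p1 := wE_pos (M := M) hr (y - x)
  have p2 := wE_pos (M := M) hρ (y - x0)
  have p3 : 0 < (r / ρ) ^ M := by positivity
  by_cases hy : ‖y - x0‖ ≤ (2 * B + 2) * ρ
  · have h1 := wE_shift hM hρ (B := 2 * B + 2) (by positivity) (a := 0) (b := y - x0) (by rwa [zero_sub, norm_neg])
    rw [wE_zero] at h1
    have h2 : (1 + (2 * B + 2)) ^ M ≤ (2 * B + 4) ^ M := Real.rpow_le_rpow (by positivity) (by linarith) hM
    calc wE M r (y - x) = 1 * wE M r (y - x) := (one_mul _).symm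
      _ ≤ ((2 * B + 4) ^ M * wE M ρ (y - x0)) * wE M r (y - x) := by
          gcongr
          exact h1.trans (by gcongr)
      _ ≤ _ := by
          gcongr
          linarith
  · push Not at hy
    have h0 : 0 ≤ B * ρ := by positivity
    have tri : ‖y - x0‖ ≤ ‖y - x‖ + ‖x - x0‖ := by
      calc ‖y - x0‖ = ‖(y - x) + (x - x0)‖ := by congr 1; abel
        _ ≤ _ := norm_add_le _ _
    have h1 := wE_far hM hr hρ (v := y - x) (v' := y - x0) (by nlinarith) (by nlinarith)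
    have h2 : (4:ℝ) ^ M ≤ (2 * B + 4) ^ M := Real.rpow_le_rpow (by positivity) (by linarith) hM
    calc wE M r (y - x) ≤ 4 ^ M * (r / ρ) ^ M * wE M ρ (y - x0) := h1
      _ = 4 ^ M * wE M ρ (y - x0) * (r / ρ) ^ M := by ring
      _ ≤ _ := by
          gcongr
          linarith

/-- decay away from the window of the normal coordinates -/
theorem wE_normal {r B : ℝ} (hr : 0 < r) (hB : 0 ≤ B) (O : E n ≃ₗᵢ[ℝ] E n) (N : Finset (Fin n)) {x x1 : E n}
    (h : ∀ l ∈ N, |O (x - x1) l| ≤ B * r) (y : E n) :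
    wE (2 * n) r (y - x) ≤ (1 + B) ^ (2 * n) * ∏ l : N, ((1 + |O (y - x1) l| / r) ^ 2)⁻¹ := by
  have a0 : 0 ≤ ‖y - x‖ / r := by positivity
  have hl : ∀ l : N, 1 + |O (y - x1) l| / r ≤ (1 + B) * (1 + ‖y - x‖ / r) := by
    intro l
    have b1 : |O (y - x) l| ≤ ‖y - x‖ := (abs_apply_le _ _).trans (le_of_eq (O.norm_map _))
    have b2 : O (y - x1) l = O (y - x) l + O (x - x1) l := by
      rw [show y - x1 = (y - x) + (x - x1) by abel, map_add]
      rfl
    have b3 : |O (y - x1) l| / r ≤ ‖y - x‖ / r + B := by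
      rw [div_le_iff₀ hr, add_mul, div_mul_cancel₀ _ hr.ne', b2]
      exact (abs_add_le _ _).trans (add_le_add b1 (h l l.2))
    nlinarith [mul_nonneg hB a0]
  have hcard : Fintype.card N ≤ n := by
    rw [Fintype.card_coe]
    exact (Finset.card_le_univ N).trans (by simp)
  have h1 : ∏ l : N, (1 + |O (y - x1) l| / r) ^ 2 ≤ ((1 + B) * (1 + ‖y - x‖ / r)) ^ (2 * n) := by
    calc ∏ l : N, (1 + |O (y - x1) l| / r) ^ 2 ≤ ∏ _l : N, ((1 + B) * (1 + ‖y - x‖ / r)) ^ 2 :=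
          Finset.prod_le_prod (fun l _ => by positivity) fun l _ => pow_le_pow_left₀ (by positivity) (hl l) 2
      _ = ((1 + B) * (1 + ‖y - x‖ / r)) ^ (2 * Fintype.card N) := by
          rw [Finset.prod_const, Finset.card_univ, ← pow_mul]
      _ ≤ _ := pow_le_pow_right₀ (by nlinarith [mul_nonneg hB a0]) (by omega)
  have h2 : wE (2 * n) r (y - x) = ((1 + ‖y - x‖ / r) ^ (2 * n))⁻¹ := by
    unfold wE
    rw [Real.rpow_neg (by positivity), ← Real.rpow_natCast]
    push_cast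
    rfl
  have h3 : 0 < ∏ l : N, (1 + |O (y - x1) l| / r) ^ 2 := Finset.prod_pos fun l _ => by positivity
  rw [h2, Finset.prod_inv_distrib, ← div_eq_mul_inv, le_div_iff₀ h3, inv_mul_le_iff₀ (by positivity), ← mul_pow,
    mul_comm]
  exact h1

/-- the sum of the weights of the points of a slab -/
theorem wE_slab {M r ρ B : ℝ} (hM : (4 * n : ℝ) ≤ M) (hr : 0 < r) (hrρ : r ≤ ρ) (hB : 0 ≤ B) (O : E n ≃ₗᵢ[ℝ] E n)
    (N : Finset (Fin n)) {ι : Type} (Z : Finset ι) (x : ι → E n) (x0 x1 : E n)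
    (hx : ∀ i ∈ Z, ∀ j ∈ Z, (∀ l, ⌊x i l / r⌋ = ⌊x j l / r⌋) → i = j) (h0 : ∀ i ∈ Z, ‖x i - x0‖ ≤ B * ρ)
    (h1 : ∀ i ∈ Z, ∀ l ∈ N, |O (x i - x1) l| ≤ B * r) (y : E n) :
    ∑ i ∈ Z, wE M r (y - x i) ≤ (2 * B + 4) ^ M * (cW n * (1 + B) ^ (2 * n) + (2 * B + 2) ^ n) * wE M ρ (y - x0) *
      (∏ l : N, ((1 + |O (y - x1) l| / r) ^ 2)⁻¹ + (r / ρ) ^ N.card) := by
  have hn : (0:ℝ) ≤ n := Nat.cast_nonneg n
  have hM0 : 0 ≤ M := by linarith
  have hρ : 0 < ρ := hr.trans_le hrρ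
  have hcW := cW_nonneg n
  set P : ℝ := ∏ l : N, ((1 + |O (y - x1) l| / r) ^ 2)⁻¹ with hP
  have hP0 : 0 ≤ P := Finset.prod_nonneg fun l _ => by positivity
  have p2 := wE_pos (M := M) hρ (y - x0)
  have s1 : ∑ i ∈ Z, wE M r (y - x i) ≤ cW n * (1 + B) ^ (2 * n) * P := by
    calc ∑ i ∈ Z, wE M r (y - x i) ≤ ∑ i ∈ Z, wE (2 * n) r (y - x i) * ((1 + B) ^ (2 * n) * P) := by
          refine Finset.sum_le_sum fun i hi => ?_
          refine (wE_anti (M := 2 * n + 2 * n) (by linarith) hr _).trans ?_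
          rw [wE_add hr]
          exact mul_le_mul_of_nonneg_left (wE_normal hr hB O N (h1 i hi) y) (wE_pos hr _).le
      _ ≤ cW n * ((1 + B) ^ (2 * n) * P) := by
          rw [← Finset.sum_mul]
          exact mul_le_mul_of_nonneg_right (wE_lat le_rfl hr Z x hx y) (by positivity)
      _ = _ := by ring
  have s2 : (Z.card : ℝ) * (r / ρ) ^ M ≤ (2 * B + 2) ^ n * (r / ρ) ^ N.card := by
    have c1 := card_ball (T := B * ρ) hr (by positivity) Z x hx x0
      (fun i hi k => (abs_apply_le (x i - x0) k).trans (h0 i hi))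
    have hcard : N.card ≤ n := (Finset.card_le_univ N).trans (by simp)
    have c2 : (r / ρ) ^ M ≤ (r / ρ) ^ (n + N.card) := by
      refine ratio_pow ?_ hr hrρ
      have : (N.card : ℝ) ≤ n := by exact_mod_cast hcard
      push_cast
      linarith
    have c3 : 2 * (B * ρ) / r + 2 ≤ (2 * B + 2) * (ρ / r) := by
      have : 1 ≤ ρ / r := by rwa [le_div_iff₀ hr, one_mul]
      have e : 2 * (B * ρ) / r = 2 * B * (ρ / r) := by ring
      rw [e]
      linarith
    calc (Z.card : ℝ) * (r / ρ) ^ M ≤ ((2 * B + 2) * (ρ / r)) ^ n * (r / ρ) ^ (n + N.card) := by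
          refine mul_le_mul (c1.trans ?_) c2 (by positivity) (by positivity)
          exact pow_le_pow_left₀ (by positivity) c3 n
      _ = _ := by
          rw [pow_add, mul_pow, div_pow, div_pow r ρ n]
          field_simp
  have q0 : 0 ≤ (r / ρ) ^ N.card := by positivity
  calc ∑ i ∈ Z, wE M r (y - x i)
      ≤ ∑ i ∈ Z, (2 * B + 4) ^ M * wE M ρ (y - x0) * (wE M r (y - x i) + (r / ρ) ^ M) :=
        Finset.sum_le_sum fun i hi => wE_point hM0 hr hρ hB (h0 i hi) y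
    _ = (2 * B + 4) ^ M * wE M ρ (y - x0) * (∑ i ∈ Z, wE M r (y - x i) + Z.card * (r / ρ) ^ M) := by
        rw [← Finset.mul_sum, Finset.sum_add_distrib, Finset.sum_const, nsmul_eq_mul]
    _ ≤ (2 * B + 4) ^ M * wE M ρ (y - x0) *
          (cW n * (1 + B) ^ (2 * n) * P + (2 * B + 2) ^ n * (r / ρ) ^ N.card) := by gcongr
    _ ≤ (2 * B + 4) ^ M * wE M ρ (y - x0) *
          ((cW n * (1 + B) ^ (2 * n) + (2 * B + 2) ^ n) * (P + (r / ρ) ^ N.card)) := by
        gcongr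
        have a1 : 0 ≤ cW n * (1 + B) ^ (2 * n) := by positivity
        have a2 : 0 ≤ (2 * B + 2) ^ n := by positivity
        nlinarith [mul_nonneg a1 q0, mul_nonneg a2 hP0]
    _ = _ := by ring

theorem inv_l1_le {κ : Type} [Fintype κ] (t : κ → ℝ) :
    ((1 + l1 t) ^ (2 * Fintype.card κ))⁻¹ ≤ ∏ l, ((1 + |t l - (0 : κ → ℝ) l| / 1) ^ 2)⁻¹ := by
  have h0 := l1_nonneg t
  rw [Finset.prod_inv_distrib]
  refine inv_anti₀ (Finset.prod_pos fun l _ => by positivity) ?_
  calc ∏ l, (1 + |t l - (0 : κ → ℝ) l| / 1) ^ 2 ≤ ∏ _l : κ, (1 + l1 t) ^ 2 := by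
        refine Finset.prod_le_prod (fun l _ => by positivity) fun l _ => pow_le_pow_left₀ (by positivity) ?_ 2
        have : |t l| ≤ l1 t := Finset.single_le_sum (f := fun i => |t i|) (fun _ _ => abs_nonneg _) (Finset.mem_univ l)
        simpa using this
    _ = _ := by rw [Finset.prod_const, Finset.card_univ, ← pow_mul]

/-- the average of the slab weight over the normal directions -/
theorem slab_avg {M r ρ A K : ℝ} {N0 : ℕ} (hM : 0 ≤ M) (hN0 : M ≤ N0) (hr : 0 < r) (hρ : 0 < ρ) (hA : 1 ≤ A) (hK : 0 ≤ K)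
    (O : E n ≃ₗᵢ[ℝ] E n) (N : Finset (Fin n)) (x0 x1 : E n) {W : E n → ℝ}
    (hW : ∀ y, W y ≤ K * wE M ρ (y - x0) * (∏ l : N, ((1 + |O (y - x1) l| / r) ^ 2)⁻¹ + (r / ρ) ^ N.card)) (y : E n) :
    ∫⁻ t : N → ℝ, LO.wt (N0 + 2 * Fintype.card N) t *
        ENNReal.ofReal (W (y - ∑ l : N, t l • ((ρ / A) • O.symm (EuclideanSpace.single l.1 (1:ℝ))))) ≤
      ENNReal.ofReal (K * (c2 ^ N.card * (A ^ N.card + 1)) * (r / ρ) ^ N.card * wE M ρ (y - x0)) := by
  have hA0 : 0 < A := by linarith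
  have p2 := wE_pos (M := M) hρ (y - x0)
  have hc2 := c2_nonneg
  set L : ℝ := A * (r / ρ) with hL
  have hL0 : 0 < L := by positivity
  set c : N → ℝ := fun l => O (y - x1) l * (A / ρ) with hc
  obtain ⟨i1, v1⟩ := prod_int hL0 c
  obtain ⟨i2, v2⟩ := prod_int (κ := N) one_pos 0
  set f1 : (N → ℝ) → ℝ := fun t => ∏ l, ((1 + |t l - c l| / L) ^ 2)⁻¹ with hf1
  set f2 : (N → ℝ) → ℝ := fun t => ∏ l, ((1 + |t l - (0 : N → ℝ) l| / 1) ^ 2)⁻¹ with hf2
  have f10 : ∀ t, 0 ≤ f1 t := fun t => Finset.prod_nonneg fun l _ => by positivity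
  have f20 : ∀ t, 0 ≤ f2 t := fun t => Finset.prod_nonneg fun l _ => by positivity
  have q0 : 0 ≤ (r / ρ) ^ N.card := by positivity
  have hpt : ∀ t : N → ℝ, LO.wt (N0 + 2 * Fintype.card N) t *
      ENNReal.ofReal (W (y - ∑ l : N, t l • ((ρ / A) • O.symm (EuclideanSpace.single l.1 (1:ℝ))))) ≤
      ENNReal.ofReal (K * wE M ρ (y - x0) * (f1 t + (r / ρ) ^ N.card * f2 t)) := by
    intro t
    have h0 := l1_nonneg t
    set T : E n := ∑ l : N, t l • ((ρ / A) • O.symm (EuclideanSpace.single l.1 (1:ℝ))) with hT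
    have hTn : ‖T‖ ≤ l1 t * ρ := by
      rw [hT]
      refine (norm_sum_le _ _).trans ?_
      unfold l1
      rw [Finset.sum_mul]
      refine Finset.sum_le_sum fun l _ => ?_
      rw [norm_smul, norm_smul, LinearIsometryEquiv.norm_map, EuclideanSpace.norm_single, norm_one, mul_one,
        Real.norm_eq_abs, Real.norm_of_nonneg (by positivity)]
      exact mul_le_mul_of_nonneg_left (div_le_self hρ.le hA) (abs_nonneg _)
    have hTO : ∀ l : N, O T l = t l * (ρ / A) := by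
      intro l
      rw [hT, map_sum]
      simp only [map_smul, LinearIsometryEquiv.apply_symm_apply, WithLp.ofLp_sum, Finset.sum_apply, PiLp.smul_apply,
        EuclideanSpace.single_apply, smul_eq_mul]
      rw [Finset.sum_eq_single l]
      · simp
      · intro j _ hj
        rw [if_neg (fun h => hj (Subtype.ext h).symm)]
        simp
      · intro h
        exact absurd (Finset.mem_univ l) h
    have a1 : wE M ρ (y - T - x0) ≤ (1 + l1 t) ^ N0 * wE M ρ (y - x0) := by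
      refine (wE_shift hM hρ h0 (b := y - x0) ?_).trans (mul_le_mul_of_nonneg_right ?_ p2.le)
      · rwa [show y - T - x0 - (y - x0) = -T by abel, norm_neg]
      · rw [← Real.rpow_natCast]
        exact Real.rpow_le_rpow_of_exponent_le (by linarith) hN0
    have a2 : ∏ l : N, ((1 + |O (y - T - x1) l| / r) ^ 2)⁻¹ = f1 t := by
      rw [hf1]
      refine Finset.prod_congr rfl fun l _ => ?_
      have b1 : O (y - T - x1) l = O (y - x1) l - t l * (ρ / A) := by
        rw [show y - T - x1 = (y - x1) - T by abel, map_sub, PiLp.sub_apply, hTO]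
      have b2 : O (y - x1) l - t l * (ρ / A) = -(ρ / A) * (t l - c l) := by
        rw [hc]
        field_simp
        ring
      rw [b1, b2, abs_mul, abs_neg, abs_of_pos (by positivity : 0 < ρ / A), hL]
      congr 3
      field_simp
    have a3 := inv_l1_le t
    have a4 : ((1 + l1 t) ^ (2 * Fintype.card N))⁻¹ ≤ 1 := inv_le_one_of_one_le₀ (one_le_pow₀ (by linarith))
    have a5 : 0 ≤ ((1 + l1 t) ^ (2 * Fintype.card N))⁻¹ := by positivity
    unfold LO.wt
    rw [← ENNReal.ofReal_mul (by positivity)]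
    refine ENNReal.ofReal_le_ofReal ?_
    have a6 := hW (y - T)
    rw [a2] at a6
    have a7 := f10 t
    calc ((1 + l1 t) ^ (N0 + 2 * Fintype.card N))⁻¹ * W (y - T)
        ≤ ((1 + l1 t) ^ (N0 + 2 * Fintype.card N))⁻¹ *
            (K * ((1 + l1 t) ^ N0 * wE M ρ (y - x0)) * (f1 t + (r / ρ) ^ N.card)) := by
          refine mul_le_mul_of_nonneg_left (a6.trans ?_) (by positivity)
          gcongr
      _ = K * wE M ρ (y - x0) * (((1 + l1 t) ^ (2 * Fintype.card N))⁻¹ * f1 t +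
            (r / ρ) ^ N.card * ((1 + l1 t) ^ (2 * Fintype.card N))⁻¹) := by
          rw [pow_add]
          field_simp
      _ ≤ _ := by
          gcongr
          exact mul_le_of_le_one_left a7 a4
  refine (lintegral_mono hpt).trans (le_of_eq ?_)
  have i3 : Integrable (fun t => K * wE M ρ (y - x0) * (f1 t + (r / ρ) ^ N.card * f2 t)) :=
    (i1.add (i2.const_mul _)).const_mul _
  rw [← ofReal_integral_eq_lintegral_ofReal i3
    (Filter.Eventually.of_forall fun t => by have := f10 t; have := f20 t; positivity),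
    integral_const_mul, integral_add i1 (i2.const_mul _), integral_const_mul, v1, v2, Fintype.card_coe, hL]
  congr 1
  rw [mul_pow, mul_pow, one_mul]
  ring

/-- **slab bound** for a set `N` of normal coordinates -/
theorem mean_slabN (n : ℕ) (N : Finset (Fin n)) (M A B : ℝ) (hM : (4 * n : ℝ) < M) (hA : 1 ≤ A) (hB : 0 ≤ B) :
    ∃ C : ℝ, 0 ≤ C ∧ ∀ (r ρ : ℝ) (O : E n ≃ₗᵢ[ℝ] E n) (ηs : E n) (G : E n → ℂ), 0 < r → r ≤ ρ → Integrable G →
      (∀ η, G η ≠ 0 → ∀ l ∈ N, |O (η - ηs) l| ≤ A / ρ) →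
      ∀ (ι : Type) (Z : Finset ι) (x : ι → E n) (x0 x1 : E n) (s : ℝ),
        (∀ i ∈ Z, ∀ j ∈ Z, (∀ l, ⌊x i l / r⌋ = ⌊x j l / r⌋) → i = j) → (∀ i ∈ Z, ‖x i - x0‖ ≤ B * ρ) →
        (∀ i ∈ Z, ∀ l ∈ N, |O (x i - x1) l| ≤ B * r) →
        ∑ i ∈ Z, mean r M (x i) s G ≤ C * ((ρ / r) ^ n * (r / ρ) ^ N.card) * mean ρ M x0 s G := by
  have hn : (0:ℝ) ≤ n := Nat.cast_nonneg n
  have hM0 : 0 ≤ M := by linarith
  have hMn : (n : ℝ) < M := by linarith
  have hA0 : 0 < A := by linarith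
  obtain ⟨N0, hN0⟩ := exists_nat_ge M
  obtain ⟨C0, hC0, hlc⟩ := lc_dir N (N0 + 2 * Fintype.card N)
  have hcW := cW_nonneg n
  have hc2 := c2_nonneg
  set K : ℝ := (2 * B + 4) ^ M * (cW n * (1 + B) ^ (2 * n) + (2 * B + 2) ^ n) with hK
  have hK0 : 0 ≤ K := by positivity
  set K1 : ℝ := K * (c2 ^ N.card * (A ^ N.card + 1)) with hK1
  have hK10 : 0 ≤ K1 := by positivity
  refine ⟨C0 * K1, by positivity, ?_⟩
  intro r ρ O ηs G hr hrρ hG hs ι Z x x0 x1 s hx h0 h1
  have hρ : 0 < ρ := hr.trans_le hrρ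
  set W : E n → ℝ := fun y => ∑ i ∈ Z, wE M r (y - x i) with hWd
  have hW0 : ∀ y, 0 ≤ W y := fun y => Finset.sum_nonneg fun i _ => (wE_pos hr _).le
  have hWi : Integrable W := integrable_finsetSum _ fun i _ => wE_integrable hMn hr (x i)
  have hWm : Measurable W := by
    have := wE_meas (n := n) M r
    rw [hWd]
    fun_prop
  have hWb := wE_slab hM.le hr hrρ hB O N Z x x0 x1 hx h0 h1
  set e : N → E n := fun l => (ρ / A) • O.symm (EuclideanSpace.single l.1 (1:ℝ)) with he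
  set F : E n → ℝ≥0∞ := fun y => ‖evo G y s 0‖ₑ ^ 2 with hF
  have hFm : Measurable F := evo_meas hG s
  have hT : Continuous (fun t : N → ℝ => ∑ l, t l • e l) := by fun_prop
  have hTm := hT.measurable
  have hwm := wt_meas (κ := N) (N0 + 2 * Fintype.card N)
  have k1 : ∀ y, F y ≤ ENNReal.ofReal C0 * ∫⁻ t : N → ℝ, F (y + ∑ l, t l • e l) * LO.wt (N0 + 2 * Fintype.card N) t := by
    intro y
    have := hlc e 0 (fun l => inner ℝ (e l) ηs) G hG ?_ y s
    · simpa only [Pi.zero_apply, mul_zero, Finset.sum_const_zero, add_zero] using this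
    · intro η hη l
      rw [Pi.zero_apply, zero_mul, sub_zero, ← inner_sub_right, he]
      simp only [real_inner_smul_left, inner_symm_single]
      rw [abs_mul, abs_of_pos (by positivity : 0 < ρ / A)]
      calc ρ / A * |O (η - ηs) l| ≤ ρ / A * (A / ρ) := by gcongr; exact hs η hη l l.2
        _ = 1 := by field_simp
  have k2 : ∫⁻ y, F y * ENNReal.ofReal (W y) ≤ ENNReal.ofReal C0 * ∫⁻ y, F y *
      ∫⁻ t : N → ℝ, LO.wt (N0 + 2 * Fintype.card N) t * ENNReal.ofReal (W (y - ∑ l, t l • e l)) := by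
    calc ∫⁻ y, F y * ENNReal.ofReal (W y)
        ≤ ∫⁻ y, ENNReal.ofReal C0 * ∫⁻ t : N → ℝ, F (y + ∑ l, t l • e l) *
            (LO.wt (N0 + 2 * Fintype.card N) t * ENNReal.ofReal (W y)) := by
          refine lintegral_mono fun y => ?_
          refine (mul_le_mul' (k1 y) le_rfl).trans (le_of_eq ?_)
          rw [mul_assoc, ← lintegral_mul_const' _ _ ENNReal.ofReal_ne_top]
          congr 1
          apply lintegral_congr
          intro t
          ring
      _ = ENNReal.ofReal C0 * ∫⁻ t : N → ℝ, ∫⁻ y, F (y + ∑ l, t l • e l) *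
            (LO.wt (N0 + 2 * Fintype.card N) t * ENNReal.ofReal (W y)) := by
          rw [lintegral_const_mul' _ _ ENNReal.ofReal_ne_top, lintegral_lintegral_swap]
          apply Measurable.aemeasurable
          unfold Function.uncurry
          fun_prop
      _ = ENNReal.ofReal C0 * ∫⁻ t : N → ℝ, ∫⁻ y, F y *
            (LO.wt (N0 + 2 * Fintype.card N) t * ENNReal.ofReal (W (y - ∑ l, t l • e l))) := by
          congr 1
          apply lintegral_congr
          intro t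
          rw [← lintegral_sub_right_eq_self _ (∑ l, t l • e l)]
          simp only [sub_add_cancel]
      _ = _ := by
          congr 1
          rw [lintegral_lintegral_swap]
          · apply lintegral_congr
            intro y
            rw [lintegral_const_mul]
            fun_prop
          · apply Measurable.aemeasurable
            unfold Function.uncurry
            fun_prop
  have k3 : ∫⁻ y, F y * ∫⁻ t : N → ℝ, LO.wt (N0 + 2 * Fintype.card N) t * ENNReal.ofReal (W (y - ∑ l, t l • e l)) ≤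
      ENNReal.ofReal (K1 * (r / ρ) ^ N.card) * ∫⁻ y, F y * ENNReal.ofReal (wE M ρ (y - x0)) := by
    rw [← lintegral_const_mul' _ _ ENNReal.ofReal_ne_top]
    refine lintegral_mono fun y => ?_
    rw [mul_left_comm, ← ENNReal.ofReal_mul (by positivity)]
    exact mul_le_mul' le_rfl (slab_avg hM0 hN0 hr hρ hA hK0 O N x0 x1 hWb y)
  have hm := mean_nonneg hρ M x0 s G
  refine (mean_sum_le hMn hr Z x s hG (W := W) (fun y => le_rfl) (evo_w_int hG s hWi)).trans ?_
  rw [← ENNReal.ofReal_le_ofReal_iff (by positivity), ENNReal.ofReal_mul (by positivity),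
    ofReal_int_sq hW0 (evo_w_int hG s hWi), ENNReal.ofReal_mul (by positivity), mean_eq hMn hρ x0 s hG]
  unfold mnE
  refine (mul_le_mul' le_rfl (k2.trans (mul_le_mul' le_rfl k3))).trans (le_of_eq ?_)
  simp only [← mul_assoc]
  congr 1
  rw [← ENNReal.ofReal_mul (by positivity), ← ENNReal.ofReal_mul (by positivity), ← ENNReal.ofReal_mul (by positivity)]
  congr 1
  rw [div_pow ρ r n]
  field_simp

theorem card_ge (n k : ℕ) : (Finset.univ.filter fun l : Fin n => k ≤ l.val).card = n - k := by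
  rw [← Nat.card_Ico k n]
  refine Finset.card_bij (fun l _ => l.val) ?_ ?_ ?_
  · intro l hl
    rw [Finset.mem_Ico]
    exact ⟨(Finset.mem_filter.mp hl).2, l.2⟩
  · intro a _ b _ h
    exact Fin.ext h
  · intro j hj
    rw [Finset.mem_Ico] at hj
    exact ⟨⟨j, hj.2⟩, Finset.mem_filter.mpr ⟨Finset.mem_univ _, hj.1⟩, rfl⟩

/-- **slab bound**, normal coordinates `l ≥ k`, constant uniform in `k ≤ n` -/
theorem mean_slab (n : ℕ) (M A B : ℝ) (hM : (4 * n : ℝ) < M) (hA : 1 ≤ A) (hB : 0 ≤ B) :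
    ∃ C : ℝ, 0 ≤ C ∧ ∀ (k : ℕ) (r ρ : ℝ) (O : E n ≃ₗᵢ[ℝ] E n) (ηs : E n) (G : E n → ℂ), k ≤ n → 0 < r → r ≤ ρ →
      Integrable G → (∀ η, G η ≠ 0 → ∀ l : Fin n, k ≤ l.val → |O (η - ηs) l| ≤ A / ρ) →
      ∀ (ι : Type) (Z : Finset ι) (x : ι → E n) (x0 x1 : E n) (s : ℝ),
        (∀ i ∈ Z, ∀ j ∈ Z, (∀ l, ⌊x i l / r⌋ = ⌊x j l / r⌋) → i = j) → (∀ i ∈ Z, ‖x i - x0‖ ≤ B * ρ) →
        (∀ i ∈ Z, ∀ l : Fin n, k ≤ l.val → |O (x i - x1) l| ≤ B * r) →
        ∑ i ∈ Z, mean r M (x i) s G ≤ C * (ρ / r) ^ k * mean ρ M x0 s G := by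
  choose C hC h using fun k : ℕ => mean_slabN n (Finset.univ.filter fun l : Fin n => k ≤ l.val) M A B hM hA hB
  refine ⟨∑ k ∈ Finset.range (n + 1), C k, Finset.sum_nonneg fun k _ => hC k, ?_⟩
  intro k r ρ O ηs G hk hr hrρ hG hs ι Z x x0 x1 s hx h0 h1
  have hρ : 0 < ρ := hr.trans_le hrρ
  have key := h k r ρ O ηs G hr hrρ hG (fun η hη l hl => hs η hη l (Finset.mem_filter.mp hl).2) ι Z x x0 x1 s hx h0
    (fun i hi l hl => h1 i hi l (Finset.mem_filter.mp hl).2)
  have e : (ρ / r) ^ n * (r / ρ) ^ (Finset.univ.filter fun l : Fin n => k ≤ l.val).card = (ρ / r) ^ k := by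
    rw [card_ge]
    obtain ⟨j, rfl⟩ := Nat.exists_eq_add_of_le hk
    rw [Nat.add_sub_cancel_left, pow_add, mul_assoc, ← mul_pow]
    have : ρ / r * (r / ρ) = 1 := by field_simp
    rw [this, one_pow, mul_one]
  rw [e] at key
  refine key.trans ?_
  have hm := mean_nonneg hρ M x0 s G
  have : C k ≤ ∑ k ∈ Finset.range (n + 1), C k :=
    Finset.single_le_sum (f := C) (fun k _ => hC k) (Finset.mem_range.mpr (by omega))
  gcongr

end Vale.Agent.P076T
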